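import Vale.Agent.P354YM.Props

/-!
LOCA: the statement about the spine, in the ingoing charts of an end.
-/

set_option linter.all false

open scoped ContDiff
open Set

noncomputable section

namespace Vale.Agent.P354LF

open Vale.Agent.P354n (R4)
open Vale.Agent.P354I (rm)
open Vale.Agent.P354R (Met)
open Vale.Agent.P354XE
open Vale.Agent.P354XU (Jt)
open Vale.Agent.P354XM (sh)
open Vale.Agent.P354YR (XI)
open Vale.Agent.P354YM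

/-- The near zone after the time t. -/
def Nz (M r0 t : ℝ) : Set R4 := {p | t ≤ p.1 ∧ r0 ≤ rd p ∧ rd p ≤ 4 * M}

/-- The map β goes from the chart of the reference to the target, ψ is the chart of the target
with the inverse ι on DE, and G is the target metric in this chart. On K the map ι ∘ β is an
almost isometry of Kerr p1 to Kerr p2 wherever it makes sense. -/
structure Sp (M a r1 r0 s c L t ε : ℝ) (N : ℕ) (p1 p2 : ℝ × ℝ) (K DE D' : Set R4)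
    (β ψ ι : R4 → R4) (G : Tw) : Prop where
  par : ‖p1 - (M, a)‖ ≤ ε ∧ ‖p2 - (M, a)‖ ≤ ε
  past : ∀ x x' γ, x' ∈ K → Cu (gin M a) (XI M a) (Nz M r0 t) x x' γ →
    (∀ u ∈ Icc (0 : ℝ) 1, ‖deriv γ u‖ ≤ L ∧
      gin M a (γ u) (deriv γ u) (deriv γ u) ≤ -c * ‖deriv γ u‖ ^ 2) → ∀ u ∈ Icc (0 : ℝ) 1, γ u ∈ K
  sm : ∃ O, IsOpen O ∧ K ∩ Nz M r0 t ⊆ O ∧ ContDiffOn ℝ ∞ β O
  opn : IsOpen DE ∧ ContDiffOn ℝ ∞ ι DE
  psi : ContinuousOn ψ {x | r1 < rd x} ∧ (∀ x, r1 < rd x → ψ x ∈ DE ∧ ι (ψ x) = x) ∧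
    ∀ y ∈ DE, ψ (ι y) = y
  met : IsOpen D' ∧ Met G D'
  cl : ∀ p ∈ K ∩ Nz M r0 t, β p ∈ DE → ι (β p) ∈ D' ∧
    Bd N (pb (ι ∘ β) G - gin p1.1 p1.2) p (ε * (1 + |p.1|) ^ (-s)) ∧
    (0 ≤ (ι (β p)).1 → rd (ι (β p)) ≤ 5 * M →
      Bd N (G - gin p2.1 p2.2) (ι (β p)) (ε * (1 + |(ι (β p)).1|) ^ (-s)))

/-- SPINE: on every late box of height Lb the map is close to one shift. -/
def SPINE : Prop :=
  ∀ (M a r1 r0 s Lb : ℝ) (n : ℕ), a ≠ 0 → |a| < M → rm M a < r1 → r1 < r0 → r0 ≤ 2 * M → 0 ≤ s →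
    ∃ c > 0, ∃ L t1, ∀ t ≥ t1, ∃ t2 C, ∃ δ > 0, ∀ ε ∈ Ioc 0 δ, ∀ p1 p2 K DE D' β ψ ι G,
      Sp M a r1 r0 s c L t ε (n + 3) p1 p2 K DE D' β ψ ι G →
      ((t, y0 M) ∈ K → β (t, y0 M) ∈ DE ∧ Jt 1 (ι ∘ β - id) (t, y0 M) δ) →
      ∀ t0 ≥ t2, ∃ c' φ, ∀ p ∈ K, |p.1 - t0| ≤ Lb → r0 ≤ rd p → rd p ≤ 4 * M →
        ‖p2 - p1‖ ≤ C * ε * (1 + t0) ^ (-s) ∧ β p ∈ DE ∧
          Jt n (ι ∘ β - sh c' φ) p (C * ε * (1 + t0) ^ (-s))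

end Vale.Agent.P354LF
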