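import Vale.Agent.P354LF.Kr
import Vale.Agent.P354LF.Defs
import Vale.Agent.P354XM.Sw
import Vale.Agent.P354YJ.Cls

/-!
LOCA: the ingoing charts adapted to the parameters.
-/

set_option linter.all false
set_option maxSynthPendingDepth 3

open scoped ContDiff
open Set Filter Topology Matrix

noncomputable section

namespace Vale.Agent.P354LF

open Vale.Agent.P354n (R4)
open Vale.Agent.P354I (X Dat rm rp Sg)
open Vale.Agent.P354XE hiding ci
open Vale.Agent.P354XA (linL lin_eq rd_lin)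
open Vale.Agent.P354XU (Jt)
open Vale.Agent.P354XM (inv_lin lin_inv lin_DI cq_mem cq_cd iq_cd iq_cq cq_iq jt_lin hin hin_ap)
open Vale.Agent.P354YI (Jb ex_jb at_fd ev_dif jb_const)
open Vale.Agent.P354YR (gK XK XI DK DI DE ci isCh gin_lor open_DI open_DE)
open Vale.Agent.P354YM hiding kv_mono jt_congr

variable {M a r1 r0 r2 θ s δ c ε e : ℝ} {σ : Bool} {p x : R4} {q q' : Par}

theorem lin_le (h : |q.l| ≤ ε) (h' : ∀ i j, |q.R i j| ≤ ε) : ‖linL q‖ ≤ 3 * ε := by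
  have e0 := (abs_nonneg _).trans h
  refine ContinuousLinearMap.opNorm_le_bound _ (by positivity) fun v => ?_
  have k : ∀ {x y}, |x| ≤ ε → |y| ≤ ‖v‖ → |x * y| ≤ ε * ‖v‖ := fun a b =>
    (abs_mul _ _).trans_le (mul_le_mul a b (abs_nonneg _) e0)
  have j := fun i => (abs_add_three _ _ _).trans (add_le_add (add_le_add
    (k (h' i 0) ((norm_fst_le v.2).trans (norm_snd_le v)))
    (k (h' i 1) ((norm_fst_le v.2.2).trans ((norm_snd_le v.2).trans (norm_snd_le v)))))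
    (k (h' i 2) ((norm_snd_le v.2.2).trans ((norm_snd_le v.2).trans (norm_snd_le v)))))
  rw [show linL q v = _ from lin_eq q v]
  exact max_le (by linarith [k h (norm_fst_le v), mul_nonneg e0 (norm_nonneg v),
    Real.norm_eq_abs (q.l * v.1)]) (max_le ((j 0).trans_eq (by ring))
      (max_le ((j 1).trans_eq (by ring)) ((j 2).trans_eq (by ring))))

theorem lin_nr (h : |q.l - 1| ≤ ε) (h' : ∀ i j, |(q.R - 1) i j| ≤ ε) : ‖linL q - 1‖ ≤ 3 * ε := by
  refine le_of_eq_of_le (congrArg _ (ContinuousLinearMap.ext fun v => ?_))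
    (lin_le (q := ⟨0, 0, q.l - 1, q.R - 1⟩) h h')
  change q.lin v - v = Par.lin _ v
  rw [lin_eq, lin_eq]
  ext <;> simp <;> ring

/-- The inverse as a linear map. -/
def invL (q : Par) : R4 →L[ℝ] R4 := linL ⟨0, 0, q.l⁻¹, q.Rᵀ⟩

theorem invL_ap (q : Par) (v : R4) : invL q v = P354YM.inv q v := by
  rw [P354YM.inv.eq_1, div_eq_inv_mul]
  rfl

theorem nr (h : q.Near M a ε) (he : ε ≤ 1 / 2) : 1 / 2 ≤ q.l ∧ q.l ≤ 2 ∧ ‖linL q‖ ≤ 3 ∧
    ‖invL q - 1‖ ≤ 6 * ε ∧ ‖invL q‖ ≤ 4 := by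
  obtain ⟨l1, l2⟩ := abs_lt.1 h.2.2.1
  have l0 : 0 < q.l := by linarith
  have k : ∀ A : R4 →L[ℝ] R4, ‖A‖ ≤ ‖A - 1‖ + 1 := fun A =>
    (norm_le_norm_sub_add A 1).trans (add_le_add le_rfl ContinuousLinearMap.norm_id_le)
  have a1 := lin_nr h.2.2.1.le fun i j => (h.2.2.2.2 i j).le
  have a2 := lin_nr (q := ⟨0, 0, q.l⁻¹, q.Rᵀ⟩) (ε := 2 * ε) (by
    rw [show q.l⁻¹ - 1 = (1 - q.l) / q.l by field_simp, abs_div, abs_of_pos l0, div_le_iff₀ l0,
      abs_le]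
    constructor <;> nlinarith) fun i j => by
      have := h.2.2.2.2 j i
      rw [← transpose_one, ← transpose_sub, transpose_apply]
      linarith
  exact ⟨by linarith, by linarith, by linarith [k (linL q)], by rw [invL]; linarith,
    by linarith [k (invL q), show ‖invL q - 1‖ ≤ _ from a2]⟩

theorem shell_cpt (t r r' : ℝ) : IsCompact {x : R4 | |x.1| ≤ t ∧ r ≤ rd x ∧ rd x ≤ r'} :=
  (isCompact_closedBall (0 : R4) (t + r')).of_isClosed_subset
    ((isClosed_le continuous_fst.abs continuous_const).inter ((isClosed_le continuous_const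
      rd_cont).inter (isClosed_le rd_cont continuous_const))) fun x k =>
    mem_closedBall_zero_iff.2 ((P354XA.norm_le x).trans (add_le_add k.1 k.2.2))

/-- From the Kruskal chart to the adapted charts. -/
theorem cnv (h : |a| < M) {Q : Set R4} (hQ : IsCompact Q) (sQ : Q ⊆ DI M a) (n : ℕ) (he : 0 < e) :
    ∃ e1 > 0, ∀ σ (q q' : Par) (b : R4 → R4) p, q.Near M a e1 → q'.Near M a e1 → q.lin p ∈ Q →
      ContDiffAt ℝ ∞ b (cq M a σ q p) → Jt n (b - id) (cq M a σ q p) e1 →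
        b (cq M a σ q p) ∈ DE M a σ ∧ Jt n (iq M a σ q' ∘ b ∘ cq M a σ q - id) p e := by
  suffices k : ∀ σ, ∃ e1 > 0, ∀ (q q' : Par) (b : R4 → R4) p, q.Near M a e1 → q'.Near M a e1 →
      q.lin p ∈ Q → ContDiffAt ℝ ∞ b (cq M a σ q p) → Jt n (b - id) (cq M a σ q p) e1 →
        b (cq M a σ q p) ∈ DE M a σ ∧ Jt n (iq M a σ q' ∘ b ∘ cq M a σ q - id) p e by
    choose e1 e0 k using k
    refine ⟨min (e1 true) (e1 false), lt_min (e0 _) (e0 _), fun σ q q' b p a1 a2 a3 a4 a5 => ?_⟩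
    have l : min (e1 true) (e1 false) ≤ e1 σ := by cases σ <;> simp
    exact k σ q q' b p (Par.near_mono a1 l) (Par.near_mono a2 l) a3 a4 (jt_mono a5 l)
  intro σ
  have C := isCh h σ
  have c1 := hQ.image_of_continuousOn (f := ch M a σ)
    fun x k => (ch_cd h (sQ k)).continuousAt.continuousWithinAt
  obtain ⟨ρ, ρ0, sρ⟩ := c1.exists_cthickening_subset_open (open_DE (M := M) (a := a) σ)
    (image_subset_iff.2 fun x k => C.maps (sQ k))
  have c2 := c1.cthickening (r := ρ)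
  obtain ⟨B0, -, h0⟩ := ex_jb n c1 (f := id) fun _ _ => contDiffAt_id
  obtain ⟨C1, c10, h1⟩ := P354XM.comp n c2 (fun x k => ci_cd h (sρ k)) (B0 + 1)
  obtain ⟨B1, -, h2⟩ := ex_jb n hQ fun x k => at_fd (ch_cd (σ := σ) h (sQ k))
  obtain ⟨C2, c20, h3⟩ := jb_comp n B1
  obtain ⟨B2, h4⟩ := hQ.isBounded.exists_norm_le
  obtain ⟨E, hE⟩ : ∃ E, E = (4 * (C2 * C1) + 12 * (|B2| + 1)) * 3 ^ n := ⟨_, rfl⟩
  have E0 : 0 < E := by rw [hE]; positivity
  obtain ⟨e1, e0, l1, l2, l3⟩ : ∃ e1 > 0, e1 ≤ ρ ∧ e1 ≤ 1 / 2 ∧ E * e1 ≤ e :=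
    ⟨min (min ρ (1 / 2)) (e / E), by positivity, (min_le_left _ _).trans (min_le_left _ _),
      (min_le_left _ _).trans (min_le_right _ _), (le_div_iff₀' E0).1 (min_le_right _ _)⟩
  refine ⟨e1, e0, fun q q' b p a1 a2 a3 a4 a5 => ?_⟩
  obtain ⟨n1, -, n2, n3, -⟩ := nr a1 l2
  obtain ⟨-, -, -, n4, n5⟩ := nr a2 l2
  have m1 : cq M a σ q p ∈ ch M a σ '' Q := ⟨_, a3, rfl⟩
  have m2 := Metric.mem_cthickening_of_dist_le (b (cq M a σ q p)) _ ρ _ m1
    (by rw [dist_eq_norm]; exact (P354XM.jt_zero a5).trans l1)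
  have t := h1 b id _ e1 ((P354XM.Tm.of_bd a4 contDiffAt_id (h0 _ m1) a5).mono le_rfl
    (by linarith) le_rfl) m2 (Metric.self_subset_cthickening _ m1)
  have s1 := ch_cd (σ := σ) h (sQ a3)
  have s2 := (t.su.sub t.sv).comp (q.lin p) s1
  have j0 := h3 _ _ _ _ s1 (h2 _ a3) (t.su.sub t.sv) t.bd
  have j := P354XM.Jb.add ((invL q').contDiff.contDiffAt.comp _ s2)
    (invL q' - invL q).contDiff.contDiffAt (P354XM.Jb.clm (invL q') s2 j0)
    (P354XM.Jb.lin (invL q' - invL q))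
  have n6 : ‖invL q' - invL q‖ ≤ 12 * e1 :=
    (norm_sub_le_norm_sub_add_norm_sub _ 1 _).trans (by rw [norm_sub_rev 1]; linarith)
  refine ⟨sρ m2, jt_mono (P354XM.jt_congr (jt_lin (linL q) n2 (by norm_num)
    (((invL q').contDiff.contDiffAt.comp _ s2).add (invL q' - invL q).contDiff.contDiffAt) j) ?_) ?_⟩
  · filter_upwards [(linL q).continuous.continuousAt.eventually (open_DI.mem_nhds (sQ a3))]
      with y hy
    have e1 := C.left _ hy
    have e2 := inv_lin a1.2.2.2.1 (by linarith) y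
    change _ = invL q' (ci M a σ (b (ch M a σ (q.lin y))) - ci M a σ (ch M a σ (q.lin y))) +
      (invL q' (q.lin y) - invL q (q.lin y))
    rw [show ci M a σ (ch M a σ (q.lin y)) = q.lin y from e1, map_sub, sub_add_sub_cancel,
      invL_ap q, e2, invL_ap]
    rfl
  · refine le_trans ?_ l3
    rw [hE, mul_right_comm]
    refine mul_le_mul_of_nonneg_right ?_ (by positivity)
    have := ((invL q' - invL q).le_opNorm _).trans (mul_le_mul n6 ((h4 _ a3).trans (le_abs_self _))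
      (norm_nonneg _) (by positivity))
    have := mul_le_mul_of_nonneg_right n5 (show 0 ≤ C2 * (C1 * e1) by positivity)
    linarith

theorem cq_fd (h : |a| < M) (hq : q.Rᵀ * q.R = 1) (hp : p ∈ DI M a) (w : R4) :
    fderiv ℝ (cq M a σ q) p w = fderiv ℝ (ch M a σ) (q.lin p) (q.lin w) :=
  DFunLike.congr_fun (((ch_cd h (lin_DI hq hp)).differentiableAt (by simp)).hasFDerivAt.comp p
    (linL q).hasFDerivAt).fderiv w

theorem en_of (hM : |a| < M) (h : q.Near M a ε) (he : ε ≤ 1 / 2) (hθ : θ ≤ 1) (h0 : 0 ≤ p.1)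
    (h1 : r1 < rd p) (h2 : 0 ≤ (cq M a σ q p).1) : q.lin p ∈ En M a r1 θ :=
  ⟨(rd_lin h.2.2.2.1 p).symm ▸ h1, hθ.trans (Real.one_le_exp (mul_nonneg (ka_pos hM).le
    (mul_nonneg (by linarith [(nr h he).1]) h0))), ch_fst (M := M) (a := a) σ (q.lin p) ▸ h2⟩

theorem gin_par (M a : ℝ) (h : 0 < r2) (R : ℝ) : ∃ C > 0, ∀ (z : ℝ × ℝ) ε (p w : R4),
    ‖z - (M, a)‖ ≤ ε → ε ≤ 1 → r2 ≤ rd p → rd p ≤ R →
      |gin z.1 z.2 p w w - gin M a p w w| ≤ C * ε * ‖w‖ ^ 2 := by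
  obtain ⟨C, c0, hC⟩ := P354XM.lip_cpt ((isCompact_closedBall (M, a) 1).prod (shell_cpt 0 r2 R))
    fun z k => P354XM.famK.sm z (h.trans_le k.2.2.1)
  refine ⟨C, c0, fun z ε p w a1 a2 a3 a4 => ?_⟩
  have e : p = (0, p.2) + (p.1, 0) := by simp
  have m : (0, p.2) ∈ {x : R4 | |x.1| ≤ 0 ∧ r2 ≤ rd x ∧ rd x ≤ R} := ⟨by simp, a3, a4⟩
  have k := (hC (z, 0, p.2) ⟨mem_closedBall_iff_norm.2 (a1.trans a2), m⟩).2 ((M, a), 0, p.2)
    ⟨Metric.mem_closedBall_self zero_le_one, m⟩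
  rw [← hin_ap z, ← hin_ap (M, a), e, P354XM.hin_add, P354XM.hin_add]
  refine ((hin z _ - hin (M, a) _).le_opNorm₂ w w).trans ?_
  rw [mul_assoc, ← sq]
  refine mul_le_mul_of_nonneg_right (k.trans (mul_le_mul_of_nonneg_left ?_ c0.le)) (sq_nonneg _)
  simpa using a1

theorem par_le (h : q.Near M a ε) : ‖(q.M, q.a) - (M, a)‖ ≤ ε := max_le h.1.le h.2.1.le

theorem wt_le (hs : 0 ≤ s) {t : ℝ} (h : 0 ≤ t) : (1 + t) ^ (-s) ≤ 1 :=
  Real.rpow_le_one_of_one_le_of_nonpos (by linarith) (by linarith)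

/-- Vectors which are future timelike with a margin in the ingoing chart. -/
theorem fut_cq (h : |a| < M) (h1 : rm M a < r1) (h2 : r1 < r2) (hs : 0 ≤ s) (hc : 0 < c) :
    ∃ ε0 > 0, ∀ θ R, ∀ ε ∈ Ioc 0 ε0, ∀ m K W g Xf q, Lor g W Xf →
      Cls ⟨M, a, r1, θ, R, s, δ, ε, m⟩ K g Xf q → ∀ σ p w, (q σ).lin p ∈ En M a r1 θ → r2 ≤ rd p →
        rd p ≤ 4 * M → cq M a σ (q σ) p ∈ K → cq M a σ (q σ) p ∈ W → Ft (gin M a) (XI M a) p w →
        gin M a p w w ≤ -c * ‖w‖ ^ 2 →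
          Ft g Xf (cq M a σ (q σ) p) (fderiv ℝ (cq M a σ (q σ)) p w) := by
  have q0 := (rm_nonneg h).trans_lt h1
  have M0 := P354YR.M_pos h
  obtain ⟨ε1, e1, H1⟩ := P354YJ.end_pt h q0
  obtain ⟨C, c0, hC⟩ := gin_par M a (q0.trans h2) (4 * M)
  refine ⟨min (min (ε1 / 2) (1 / 2)) (c / (2 * (C + 2))), by positivity,
    fun θ R ε hε m K W g Xf q l cl σ p w m1 a1 a2 a3 a4 fw mw => ?_⟩
  have l1 := hε.2.trans ((min_le_left _ _).trans (min_le_left _ _))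
  have l2 := hε.2.trans ((min_le_left _ _).trans (min_le_right _ _))
  have l3 := (le_div_iff₀ (by positivity)).1 (hε.2.trans (min_le_right _ _))
  have nq := cl.par σ
  have mI : p ∈ DI M a := h1.trans (h2.trans_le a1)
  obtain ⟨n1, n2⟩ := cl.near σ _ m1 (by rw [rd_lin nq.2.2.2.1]; exact a2.trans (by linarith)) a3
  obtain ⟨k1, k2, k3, -⟩ := H1 _ (by linarith) _ _ m1.1.le (P354YJ.bd0 n1)
  have k4 := (abs_le.1 (P354YJ.bd0 (cl.conv σ p m1 (a2.trans (by linarith)) a3) w)).2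
  have k5 := (abs_le.1 (hC _ ε p w (par_le nq) (by linarith) a1 a2)).2
  have w0 : 0 < ‖w‖ ^ 2 := pow_pos (norm_pos_iff.2 fun e => by
    have := fw.1
    rw [e, ← hin_ap (M, a), map_zero] at this
    exact this.false) 2
  have k6 : pb (cq M a σ (q σ)) g p w w < 0 := by
    have := mul_le_mul_of_nonneg_right (mul_le_of_le_one_right (show 0 ≤ 2 * ε by linarith [hε.1])
      (wt_le hs (abs_nonneg p.1))) w0.le
    nlinarith [mul_pos hc w0]
  have k7 : 0 < w.1 := by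
    have := fw.2
    rw [(gin_lor h).met.symm p mI, P354YR.XI_gin (P354YR.DI_ne h mI), neg_lt_zero] at this
    exact pos_of_mul_pos_right this ((sq_nonneg _).trans (P354XA.Sg_ge a p))
  rw [pb, cq_fd h nq.2.2.2.1 mI] at k6
  rw [cq_fd h nq.2.2.2.1 mI]
  exact cone3 l a4 k6 k2 (P354YJ.cone (B := pb (ch M a σ) g ((q σ).lin p))
    (P354YJ.pb_bil (P354XA.met_bil l.met a4))
    (fun _ _ => l.met.symm _ a4 _ _) (ContinuousLinearMap.fst ℝ ℝ _) k1
    (mul_pos (by linarith [(nr nq l2).1]) k7) k3 k6 k2) n2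

theorem mf_le (h : |a| < M) {r s : ℝ} (h1 : rm M a < r) (h2 : r ≤ s) : mf M a r ≤ mf M a s :=
  Real.rpow_le_rpow (sub_pos.2 h1).le (by linarith)
    (div_nonneg (rm_nonneg h) (by linarith [rm_lt h, rm_nonneg h]))

theorem late (h : |a| < M) (h1 : rm M a < r2) : ∃ t ≥ 0, ∀ p : R4, t ≤ p.1 → r2 ≤ rd p →
    rd p ≤ 4 * M → 0 ≤ (kap M a p).1 := by
  have m0 := mf_pos h1
  have k0 := ka_pos h
  have M0 := P354YR.M_pos h
  refine ⟨(2 * M + 1) / mf M a r2 / ka M a, by positivity, fun p a1 a2 a3 => ?_⟩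
  have e1 := (div_le_iff₀' m0).1 (((div_le_iff₀' k0).1 a1).trans
    ((le_add_of_nonneg_right zero_le_one).trans (Real.add_one_le_exp _)))
  have e2 := e1.trans (mul_le_mul_of_nonneg_right (mf_le h h1 a2) (Real.exp_pos _).le)
  change 0 ≤ (-(rd p - rp M a) / (mf M a (rd p) * Real.exp (ka M a * p.1)) +
    mf M a (rd p) * Real.exp (ka M a * p.1)) / 2
  generalize mf M a (rd p) * Real.exp (ka M a * p.1) = V at *
  have V0 : 0 < V := by linarith
  rw [div_add' _ _ _ V0.ne']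
  exact div_nonneg (div_nonneg (by nlinarith [P354YR.rp_pos h]) V0.le) zero_le_two

end Vale.Agent.P354LF
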