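import Vale.Agent.P354SA.Far

/-!
HJU, RAY, CHAR: the Hamilton-Jacobi form of the null condition and its characteristics.
-/

set_option linter.all false
set_option maxSynthPendingDepth 3

open scoped ContDiff
open Set Filter Topology

noncomputable section

namespace Vale.Agent.P354LF

open Vale.Agent.P354n (R4)
open Vale.Agent.P354R (Met)
open Vale.Agent.P354RC (cv)
open Vale.Agent.P354XD (tb rp_tb)
open Vale.Agent.P354XE (Tw pb)
open Vale.Agent.P354YQ (SA Sol)
open Vale.Agent.P354SA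

variable {g : Tw} {D : Set R4} {q : Q6} {Y : R4 → E5} {z w : R4}

theorem xp_ap (p : Y2) (v : R4) : xp p v = v.2.1 - dot p v.2.2 := by
  simp [xp, cv, dot]
  ring

theorem xi_ap (v : R4) : xi g q v = xp q.2 v - Hm g q * v.1 := rfl

theorem xp_fd {E : Type} [NormedAddCommGroup E] [NormedSpace ℝ E] {P : E → Y2} {V : E → R4}
    {x : E} {P' : E →L[ℝ] Y2} {V' : E →L[ℝ] R4} (hP : HasFDerivAt P P' x)
    (hV : HasFDerivAt V V' x) (u : E) :
    fderiv ℝ (fun y => xp (P y) (V y)) x u = xp (P x) (V' u) - dot (P' u) (V x).2.2 := by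
  simp only [xp_ap, dot]
  rw [(hV.snd.fst.fun_sub ((hP.fst.fun_mul hV.snd.snd.fst).fun_add
    (hP.snd.fun_mul hV.snd.snd.snd))).fderiv]
  simp
  ring

theorem xp_cd : ContDiff ℝ ∞ xp :=
  (contDiff_const.sub (contDiff_fst.smul contDiff_const)).sub (contDiff_snd.smul contDiff_const)

section
variable (o : IsOpen D) (m : Met g D)
include o m

theorem ig_cd (h : q.1 ∈ D) {α β : Q6 → R4 →L[ℝ] ℝ} (a : ContDiffAt ℝ ∞ α q)
    (b : ContDiffAt ℝ ∞ β q) : ContDiffAt ℝ ∞ (fun q => ig g q.1 (α q) (β q)) q :=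
  b.clm_apply ((((rp_tb o m).inv_cd h).comp q contDiffAt_fst).clm_apply a)

theorem qb_cd (h : q.1 ∈ D) : ContDiffAt ℝ ∞ (qb g) q :=
  ig_cd o m h contDiffAt_const (xp_cd.contDiffAt.comp q contDiffAt_snd)

theorem qd_cd (h : q.1 ∈ D) : ContDiffAt ℝ ∞ (qd g) q :=
  have x := xp_cd.contDiffAt.comp q contDiffAt_snd
  ((qb_cd o m h).pow 2).sub
    ((ig_cd o m h contDiffAt_const contDiffAt_const).mul (ig_cd o m h x x))

theorem ug_open : IsOpen (Ug g D) := isOpen_iff_mem_nhds.2 fun q k =>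
  inter_mem (continuousAt_fst (o.mem_nhds k.1)) (inter_mem
    ((qb_cd o m k.1).continuousAt.eventually_const_lt k.2.1)
    ((qd_cd o m k.1).continuousAt.eventually_const_lt k.2.2))

variable (h : q ∈ Ug g D)
include h

theorem hm_cd : ContDiffAt ℝ ∞ (Hm g) q :=
  have x := xp_cd.contDiffAt.comp q contDiffAt_snd
  (ig_cd o m h.1 x x).div ((qb_cd o m h.1).add ((qd_cd o m h.1).sqrt h.2.2.ne'))
    (add_pos h.2.1 (Real.sqrt_pos.2 h.2.2)).ne'

theorem cc_cd : ContDiffAt ℝ ∞ (cc g) q :=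
  ((qd_cd o m h.1).sqrt h.2.2.ne').inv (Real.sqrt_pos.2 h.2.2).ne'

theorem wv_cd : ContDiffAt ℝ ∞ (Wv g) q :=
  (cc_cd o m h).smul ((((rp_tb o m).inv_cd h.1).comp q contDiffAt_fst).clm_apply
    ((xp_cd.contDiffAt.comp q contDiffAt_snd).sub ((hm_cd o m h).smul contDiffAt_const)))

theorem hd_cd (v : R4) : ContDiffAt ℝ ∞ (Hd g v) q :=
  ((hm_cd o m h).fderiv_right (m := ∞) (by simp)).clm_apply contDiffAt_const

theorem ig_sy (α β : R4 →L[ℝ] ℝ) : ig g q.1 α β = ig g q.1 β α := by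
  have r := rp_tb o m
  rw [ig, ig, ← r.inv h.1 β, r.symm _ h.1, r.inv h.1, r.inv h.1]

theorem wv_eq (v : R4) : g q.1 (Wv g q) v = cc g q * xi g q v := by
  rw [(rp_tb o m).eq _ h.1, Wv, map_smul, (rp_tb o m).inv h.1]
  rfl

theorem wv_ap : (Wv g q).1 = 1 ∧ xp q.2 (Wv g q) = Hm g q := by
  have s := Real.sqrt_pos.2 h.2.2
  have s2 := Real.sq_sqrt h.2.2.le
  have b := add_pos h.2.1 s
  have e : ∀ β : R4 →L[ℝ] ℝ, β (Wv g q) =
      cc g q * (ig g q.1 (xp q.2) β - Hm g q * ig g q.1 (cv 0) β) := fun β => by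
    simp only [Wv, xi, ig, map_smul, map_sub, smul_eq_mul]
  have e0 := e (cv 0)
  rw [ig_sy o m h] at e0
  nth_rewrite 2 [qd] at s2
  refine ⟨e0.trans ?_, (e _).trans ?_⟩ <;> simp only [cc, Hm] <;> rw [← qb] <;> field_simp
  · linear_combination -s2
  · ring

theorem hm_p (π : Y2) : fderiv ℝ (Hm g) q (0, π) = -dot π (Wv g q).2.2 ∧ ∀ v,
    xp q.2 (fderiv ℝ (Wv g) q (v, π)) = fderiv ℝ (Hm g) q (v, 0) := by
  have r := rp_tb o m
  have n := (ug_open o m).eventually_mem h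
  have d := ((wv_cd o m h).differentiableAt (by simp)).hasFDerivAt
  have e1 := fun u => (xp_fd hasFDerivAt_snd d u).symm.trans (DFunLike.congr_fun
    (EventuallyEq.fderiv_eq (n.mono fun _ k => (wv_ap o m k).2)) u)
  have e2 := fun u => DFunLike.congr_fun (d.fst.unique ((hasFDerivAt_const 1 q).congr_of_eventuallyEq
    (n.mono fun _ k => (wv_ap o m k).1))) u
  have e3 := fun π : Y2 => DFunLike.congr_fun ((((((r.at h.1).differentiableAt
    (by simp)).hasFDerivAt.comp q hasFDerivAt_fst).clm_apply d).clm_apply d).unique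
    ((hasFDerivAt_const 0 q).congr_of_eventuallyEq (n.mono fun x k => by
      simp only [Function.comp, ← r.eq _ k.1, wv_eq o m k, xi_ap, wv_ap o m k, mul_one, sub_self,
        mul_zero]))) (0, π)
  have e4 : ∀ π, xp q.2 (fderiv ℝ (Wv g) q (0, π)) = 0 := fun π => by
    have k := e3 π
    have k2 := e2 (0, π)
    simp at k k2
    rw [r.symm _ h.1 _ (Wv g q), ← two_mul, ← r.eq _ h.1, wv_eq o m h, xi_ap, k2] at k
    simpa [cc, (Real.sqrt_pos.2 h.2.2).ne'] using k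
  refine ⟨by simpa [e4] using (e1 (0, π)).symm, fun v => ?_⟩
  rw [show ((v, π) : Q6) = (v, 0) + (0, π) by simp, map_add, map_add, e4, ← e1]
  simp [dot]

theorem wv_uniq {V : R4} {c H : ℝ} (hc : 0 < c) (h1 : V.1 = 1) (h2 : xp q.2 V = H)
    (h3 : ∀ v, g q.1 V v = c * (xp q.2 v - H * v.1)) : V = Wv g q ∧ H = Hm g q ∧ c = cc g q := by
  have r := rp_tb o m
  have e : V = c • (tb g q.1).inverse (xp q.2 - H • cv 0) := r.ext h.1 fun v => by
    rw [← r.eq _ h.1, h3, map_smul, r.inv h.1]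
    rfl
  have e' : ∀ β : R4 →L[ℝ] ℝ, β V = c * (ig g q.1 (xp q.2) β - H * ig g q.1 (cv 0) β) :=
    fun β => by simp only [e, ig, map_smul, map_sub, smul_eq_mul]
  have a := h1.symm.trans (e' (cv 0))
  have b := h2.symm.trans (e' _)
  rw [ig_sy o m h] at a
  rw [← qb] at a b
  have s : √(qd g q) = c⁻¹ := by
    rw [Real.sqrt_eq_iff_mul_self_eq_of_pos (inv_pos.2 hc), qd]
    field_simp
    linear_combination (1 + c * (qb g q - H * ig g q.1 (cv 0) (cv 0)) +
      c * H * ig g q.1 (cv 0) (cv 0)) * a - c * ig g q.1 (cv 0) (cv 0) * b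
  have e1 : H = Hm g q := by
    have := h.2.1
    rw [Hm, s]
    field_simp
    linear_combination b
  have e2 : c = cc g q := by rw [cc, s, inv_inv]
  exact ⟨by rw [e, e1, e2]; rfl, e1, e2⟩

end

theorem ph_cd : ContDiff ℝ ∞ fun a : R4 × E5 => ph a.1 a.2 := by
  unfold ph
  fun_prop

theorem cf_cd (o : IsOpen D) (m : Met g D) {a : R4 × E5} (h : ph a.1 a.2 ∈ Ug g D) :
    ContDiffAt ℝ ∞ (cf g) a :=
  have w := (wv_cd o m h).comp a ph_cd.contDiffAt
  have d := fun v => (hd_cd o m h v).comp a ph_cd.contDiffAt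
  w.snd.fst.prodMk (w.snd.snd.prodMk
    (((d _).add (contDiffAt_snd.snd.snd.fst.mul (d _))).prodMk
      ((d _).add (contDiffAt_snd.snd.snd.snd.mul (d _)))))

theorem hju : HJU := fun g D o m =>
  ⟨ug_open o m, fun _ h => (hm_cd o m h).contDiffWithinAt, fun _ h => (cc_cd o m h).contDiffWithinAt,
    fun _ h => (wv_cd o m h).contDiffWithinAt, (ug_open o m).preimage ph_cd.continuous,
    fun _ h => (cf_cd o m h).contDiffWithinAt, fun q h => ⟨inv_pos.2 (Real.sqrt_pos.2 h.2.2),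
      (wv_ap o m h).1, by simp [xi_ap, wv_ap o m h], wv_eq o m h, fun π => (hm_p o m h π).1,
      fun _ _ _ => wv_uniq o m h⟩⟩

theorem sa_ph (s : SA Y z) : SA (Ph Y) z :=
  s.mono fun _ k => contDiffAt_fst.prodMk (k.fst.prodMk k.snd.fst)

theorem sa_pq (s : SA Y z) : SA (pq Y) z := (sa_ph s).prod (s.mono fun _ k => k.snd.snd)

theorem ph_fd (s : SA Y z) (w : R4) :
    fderiv ℝ (Ph Y) z w = (w.1, (fderiv ℝ Y z w).1, (fderiv ℝ Y z w).2.1) :=
  have d := s.diff.hasFDerivAt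
  DFunLike.congr_fun (hasFDerivAt_fst.prodMk (d.fst.prodMk d.snd.fst)).fderiv w

/-- The derivative of the contact form along the rays. -/
theorem kv_d (o : IsOpen D) (m : Met g D) (s : SA Y z) (h : pq Y z ∈ Ug g D)
    (e : ∀ᶠ x in 𝓝 z, fderiv ℝ (Ph Y) x e0 = Wv g (pq Y x)) (h0 : w.1 = 0) :
    dv e0 (kv Y w) z = Hd g e1 (pq Y z) * kv Y w z + dot ((cf g (z, Y z) - fderiv ℝ Y z e0).2.2)
      (fderiv ℝ (Ph Y) z w).2.2 := by
  have d := (sa_ph s).fderiv.diff.hasFDerivAt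
  have a := fun w => (ContinuousLinearMap.apply ℝ R4 w).hasFDerivAt.comp z d
  have dp := s.diff.hasFDerivAt.snd.snd
  have b := DFunLike.congr_fun ((a e0).unique ((((wv_cd o m h).differentiableAt
    (by simp)).hasFDerivAt.comp z ((sa_ph s).diff.hasFDerivAt.prodMk dp)).congr_of_eventuallyEq e)) w
  have sy := (sa_ph s).at.isSymmSndFDerivAt (by simpa using P354YQ.le_inf 2) e0 w
  have k := (hm_p o m h ((fderiv ℝ Y z w).2.2)).2 (fderiv ℝ (Ph Y) z w)
  refine (xp_fd dp (a w) e0).trans ?_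
  have b' : fderiv ℝ (fderiv ℝ (Ph Y)) z e0 w = _ := sy.trans b
  have v1 : (fderiv ℝ (Ph Y) z w).1 = 0 := by rw [ph_fd s, h0]
  change xp (pq Y z).2 (fderiv ℝ (fderiv ℝ (Ph Y)) z e0 w) - dot (fderiv ℝ Y z e0).2.2
    (fderiv ℝ (Ph Y) z w).2.2 = _
  rw [b', kv, xp_ap (Y z).2.2]
  refine (congrArg (· - _) k).trans ?_
  generalize fderiv ℝ (Ph Y) z w = v at v1
  rw [show ((v, 0) : Q6) = v.2.1 • (e1, 0) + v.2.2.1 • (ey 0, 0) + v.2.2.2 • (ey 1, 0) by
    simp [e1, ey, Prod.ext_iff, v1]]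
  simp only [map_add, map_smul, smul_eq_mul, dot, cf, Hd, pq, Prod.snd_sub, Prod.fst_sub]
  ring

theorem ray : RAY := fun g D Y o m => by
  have one : ∀ z, Sol e0 (cf g) Y z → pq Y z ∈ Ug g D → fderiv ℝ (Ph Y) z e0 = Wv g (pq Y z) :=
    fun z s h => by
      rw [ph_fd s.sm, s.ode.self_of_nhds]
      exact Prod.ext (wv_ap o m h).1.symm rfl
  have two : ∀ z, Sol e0 (cf g) Y z → pq Y z ∈ Ug g D → ∀ w : R4, w.1 = 0 →
      dv e0 (kv Y w) z = Hd g e1 (pq Y z) * kv Y w z := fun z s h w h0 => by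
    rw [kv_d o m s.sm h (by
      filter_upwards [s.sm.ev, s.ode.eventually_nhds,
        (sa_pq s.sm).cont ((ug_open o m).mem_nhds h)] with x a b c using one x ⟨a, b⟩ c) h0,
      s.ode.self_of_nhds]
    simp [dot]
  refine ⟨fun z s h => ⟨one z s h, ?_, fun w h0 => ⟨two z s h w h0, ?_⟩⟩, fun x a b h w h0 => ?_⟩
  · rw [pb, one z s h]
    exact (wv_eq o m h _).trans (by simp [xi_ap, wv_ap o m h])
  · rw [pb, one z s h]
    exact (wv_eq o m h _).trans (by rw [xi_ap, ph_fd s.sm, h0, mul_zero, sub_zero, kv, ph_fd s.sm, h0]; rfl)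
  have l : ∀ s, HasDerivAt (fun s : ℝ => ((s, x) : R4)) e0 s := fun s =>
    (hasDerivAt_id s).prodMk (hasDerivAt_const s x)
  have c : ∀ s ∈ uIcc a b, ∀ᶠ t in 𝓝 s, ContinuousAt (fun t => Hd g e1 (pq Y (t, x))) t :=
    fun s hs => ((l s).continuousAt.eventually ((sa_pq (h s hs).1.sm).ev.and
      ((sa_pq (h s hs).1.sm).cont ((ug_open o m).mem_nhds (h s hs).2)))).mono fun t k =>
        (hd_cd o m k.2 e1).continuousAt.comp (f := fun t => pq Y (t, x))
          (k.1.cont.comp (f := fun s => (s, x)) (l t).continuousAt)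
  have := intervalIntegral.integral_eq_sub_of_hasDerivAt (f' := fun _ => 0) (a := a) (b := b)
    (f := fun s => Real.exp (-∫ t in a..s, Hd g e1 (pq Y (t, x))) * kv Y w (s, x))
    (fun s hs => by
      have i := intervalIntegral.integral_hasDerivAt_right (ContinuousOn.intervalIntegrable
        fun t ht => (c t (uIcc_subset_uIcc_left hs ht)).self_of_nhds.continuousWithinAt)
        (ContinuousAt.stronglyMeasurableAtFilter isOpen_setOf_eventually_nhds
          (fun _ k => k.self_of_nhds) s (c s hs)) (c s hs).self_of_nhds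
      have sm := (h s hs).1.sm
      have k := ((xp_cd.contDiffAt.comp _ sm.at.snd.snd).clm_apply
        ((sa_ph sm).fderiv.at.clm_apply (contDiffAt_const (c := w)))).differentiableAt (by simp)
      refine (i.neg.exp.mul (k.hasFDerivAt.comp_hasDerivAt s (l s))).congr_deriv ?_
      have := two _ (h s hs).1 (h s hs).2 w h0
      change _ * kv Y w (s, x) + _ * dv e0 (kv Y w) (s, x) = 0
      rw [this]
      ring) intervalIntegrable_const
  simp only [intervalIntegral.integral_zero, intervalIntegral.integral_same, neg_zero,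
    Real.exp_zero, one_mul] at this
  rw [← sub_eq_zero.1 this.symm, ← mul_assoc, ← Real.exp_add, add_neg_cancel, Real.exp_zero, one_mul]

theorem dη_surj (h : ∀ y, dη Y z y = 0 → y = 0) (η : Y2) : ∃ y, dη Y z y = η :=
  LinearMap.injective_iff_surjective.1 ((injective_iff_map_eq_zero ((LinearMap.snd ℝ _ _ ∘ₗ
    LinearMap.snd ℝ _ _) ∘ₗ (fderiv ℝ (Ph Y) z : R4 →ₗ[ℝ] R4) ∘ₗ LinearMap.inr ℝ _ _ ∘ₗ
      LinearMap.inr ℝ _ _)).2 h) η

theorem char : CHAR := fun g D Y z o m s h => by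
  have ey' : ∀ y : Y2, ((0, 0, y) : R4) = y.1 • ey 0 + y.2 • ey 1 := fun y => by simp [ey]
  have k0 : ∀ x, (∀ a, kv Y (ey a) x = 0) → ∀ y, kv Y (0, 0, y) x = 0 := fun x k y => by
    have := k 0
    have := k 1
    simp only [kv] at *
    simp [ey', *]
  have one : ∀ᶠ x in 𝓝 z, fderiv ℝ (Ph Y) x e0 = Wv g (pq Y x) := by
    filter_upwards [h, s.ev] with x ⟨h1, h2, h3, h4, h5⟩ s
    have r := rp_tb o m
    have v1 : (fderiv ℝ (Ph Y) x e0).1 = 1 := by rw [ph_fd s]; rfl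
    refine (wv_uniq o m h1 h4 v1 rfl fun v => ?_).1
    obtain ⟨y, hy⟩ := dη_surj h5 (v - v.1 • fderiv ℝ (Ph Y) x e0).2.2
    have n0 := h2.1
    have n1 := h2.2 0
    have n2 := h2.2 1
    have n3 := k0 x h3 y
    have n4 : (fderiv ℝ (Ph Y) x (0, 0, y)).1 = 0 := by rw [ph_fd s]
    have n5 : tb g (Ph Y x) (fderiv ℝ (Ph Y) x e0) (fderiv ℝ (Ph Y) x (0, 0, y)) = 0 := by
      simp only [pb, r.eq (Ph Y x) h1.1] at n1 n2
      simp [ey', n1, n2]
    simp only [pb, kv, dη, show (pq Y x).1 = Ph Y x from rfl, show (pq Y x).2 = (Y x).2.2 from rfl,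
      r.eq (Ph Y x) h1.1] at *
    generalize fderiv ℝ (Ph Y) x e0 = V at *
    generalize fderiv ℝ (Ph Y) x (0, 0, y) = E at *
    have e : v = v.1 • V + E + (v - v.1 • V - E).2.1 • e1 := by
      simp [e1, Prod.ext_iff, v1, n4, hy]
    generalize (v - v.1 • V - E).2.1 = t at e
    generalize v.1 = u at e
    have e' : xp (Y x).2.2 e1 = 1 := by simp [xp_ap, e1, dot]
    rw [e]
    simp only [map_add, map_smul, smul_eq_mul, n0, n3, n5, e']
    ring
  refine ⟨s, ?_⟩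
  filter_upwards [h, h.eventually_nhds, s.ev, one.eventually_nhds] with x h1 h2 s one
  have a := one.self_of_nhds
  rw [ph_fd s] at a
  have b : ∀ η, dot (cf g (x, Y x) - fderiv ℝ Y x e0).2.2 η = 0 := fun η => by
    obtain ⟨y, rfl⟩ := dη_surj h1.2.2.2.2 η
    have := kv_d o m s h1.1 one (w := (0, 0, y)) rfl
    rw [k0 x h1.2.2.1, dv, EventuallyEq.fderiv_eq (h2.mono fun x k => k0 x k.2.2.1 y)] at this
    simpa [dη] using this.symm
  have b0 := b (1, 0)
  have b1 := b (0, 1)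
  simp only [dot, mul_one, mul_zero, add_zero, zero_add, Prod.snd_sub, Prod.fst_sub,
    sub_eq_zero] at b0 b1
  exact Prod.ext (congrArg (·.2.1) a) (Prod.ext (congrArg (·.2.2) a) (Prod.ext b0.symm b1.symm))

end Vale.Agent.P354LF
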