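import Vale.Agent.P354SC.Ch
import Vale.Agent.P354YI.Met

/-!
The curvature on a frame from the products and the brackets of the frame.
-/

set_option linter.all false
set_option maxSynthPendingDepth 3

open scoped ContDiff
open Set Filter Topology

noncomputable section

namespace Vale.Agent.P354LF

open Vale.Agent.P354n (R4)
open Vale.Agent.P354R (Met)
open Vale.Agent.P354RC
open Vale.Agent.P354XD (tb rp_tb)
open Vale.Agent.P354XE (Tw)
open Vale.Agent.P354YI (Oj ev_dif le_inf)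
open Vale.Agent.P354SC (o_mul o_mull o_mulr o_sm o_inv o_bd)
open VectorField (lieBracket)

section pt
variable {g : Tw} {h : R4 → B2} {D : Set R4} {y : R4} {X Y Z W : R4 → R4}

theorem fa1 {F F' : Type} [NormedAddCommGroup F] [NormedSpace ℝ F] [NormedAddCommGroup F']
    [NormedSpace ℝ F'] {c : R4 → F →L[ℝ] F'} {u : R4 → F} (hc : DifferentiableAt ℝ c y)
    (hu : DifferentiableAt ℝ u y) (a : R4) :
    fderiv ℝ (fun z => c z (u z)) y a = fderiv ℝ c y a (u y) + c y (fderiv ℝ u y a) := by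
  rw [fderiv_clm_apply hc hu, add_comm]; rfl

theorem fa2 (hh : DifferentiableAt ℝ h y) (hX : DifferentiableAt ℝ X y)
    (hY : DifferentiableAt ℝ Y y) (a : R4) : fderiv ℝ (fun z => h z (X z) (Y z)) y a =
      fderiv ℝ h y a (X y) (Y y) + h y (fderiv ℝ X y a) (Y y) + h y (X y) (fderiv ℝ Y y a) := by
  rw [fa1 (hh.clm_apply hX) hY, fa1 hh hX]; rfl

theorem fa3 {T : R4 → R4 →L[ℝ] B2} (hT : DifferentiableAt ℝ T y) (hX : DifferentiableAt ℝ X y)
    (hY : DifferentiableAt ℝ Y y) (hZ : DifferentiableAt ℝ Z y) (a : R4) :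
    fderiv ℝ (fun z => T z (X z) (Y z) (Z z)) y a = fderiv ℝ T y a (X y) (Y y) (Z y) +
      T y (fderiv ℝ X y a) (Y y) (Z y) + T y (X y) (fderiv ℝ Y y a) (Z y) +
      T y (X y) (Y y) (fderiv ℝ Z y a) := by
  rw [fa2 (hT.clm_apply hX) hY hZ, fa1 hT hX]; rfl

/-- The covariant derivative of Y along the vector a, and the connection coefficients. -/
def nb (h : R4 → B2) (Y : R4 → R4) (y a : R4) : R4 := fderiv ℝ Y y a + Gm h y a (Y y)
def La (h : R4 → B2) (X Y Z : R4 → R4) (y : R4) : ℝ := h y (nb h Y y (X y)) (Z y)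

theorem nb_sum (c : Fin 4 → ℝ) (v : Fin 4 → R4) :
    nb h Y y (∑ o, c o • v o) = ∑ o, c o • nb h Y y (v o) := by
  simp only [nb, Fin.sum_univ_four, map_add, map_smul, Gm_add1, Gm_smul1, smul_add]
  abel

theorem koszul (r : Rp g h D) (hy : y ∈ D) (hX : DifferentiableAt ℝ X y)
    (hY : DifferentiableAt ℝ Y y) (hZ : DifferentiableAt ℝ Z y) :
    La h X Y Z y = 2⁻¹ * (fderiv ℝ (fun z => h z (Y z) (Z z)) y (X y) +
      fderiv ℝ (fun z => h z (X z) (Z z)) y (Y y) - fderiv ℝ (fun z => h z (X z) (Y z)) y (Z y) +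
      h y (lieBracket ℝ X Y y) (Z y) - h y (lieBracket ℝ X Z y) (Y y) -
      h y (lieBracket ℝ Y Z y) (X y)) := by
  have hh := at_df (r.at hy)
  simp only [La, nb, fa2 hh hX hY, fa2 hh hX hZ, fa2 hh hY hZ, VectorField.lieBracket, map_add,
    map_sub, add_apply, sub_apply, r.gm hy, C1_ap]
  rw [r.symm y hy (Y y), r.symm y hy (X y), r.symm y hy (X y)]
  ring

theorem La_ev (r : Rp g h D) (hy : y ∈ D) : La h Y Z W =ᶠ[𝓝 y] fun z =>
    h z (fderiv ℝ Z z (Y z)) (W z) + 2⁻¹ * (fderiv ℝ h z (Y z) (Z z) (W z) +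
      fderiv ℝ h z (Z z) (Y z) (W z) - fderiv ℝ h z (W z) (Y z) (Z z)) := by
  filter_upwards [r.op.mem_nhds hy] with z hz
  simp only [La, nb, map_add, add_apply, r.gm hz, C1_ap]
  ring

theorem La_cd (r : Rp g h D) (hy : y ∈ D) (hY : ContDiffAt ℝ ∞ Y y) (hZ : ContDiffAt ℝ ∞ Z y)
    (hW : ContDiffAt ℝ ∞ W y) : ContDiffAt ℝ ∞ (La h Y Z W) y :=
  ((r.at hy).clm_apply (((at_fd hZ).clm_apply hY).add (r.gm_cd hy hY hZ))).clm_apply hW

theorem La_fd (r : Rp g h D) (hy : y ∈ D) (hY : DifferentiableAt ℝ Y y) (hZ : ContDiffAt ℝ 2 Z y)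
    (hW : DifferentiableAt ℝ W y) (a : R4) : fderiv ℝ (La h Y Z W) y a =
      fderiv ℝ h y a (fderiv ℝ Z y (Y y)) (W y) +
        h y (fderiv ℝ (fderiv ℝ Z) y a (Y y) + fderiv ℝ Z y (fderiv ℝ Y y a)) (W y) +
        h y (fderiv ℝ Z y (Y y)) (fderiv ℝ W y a) + dC h y a (Y y) (Z y) (W y) +
        C1 h y (fderiv ℝ Y y a) (Z y) (W y) + C1 h y (Y y) (fderiv ℝ Z y a) (W y) +
        C1 h y (Y y) (Z y) (fderiv ℝ W y a) := by
  have hh := at_df (r.at hy)
  have hT := at_df (at_fd (r.at hy))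
  have z1 : DifferentiableAt ℝ Z y := hZ.differentiableAt (by simp)
  have z2 : DifferentiableAt ℝ (fderiv ℝ Z) y :=
    (hZ.fderiv_right (m := 1) le_rfl).differentiableAt (by simp)
  have t := fun {A B C : R4 → R4} (a : DifferentiableAt ℝ A y) (b : DifferentiableAt ℝ B y)
    (c : DifferentiableAt ℝ C y) => ((hT.clm_apply a).clm_apply b).clm_apply c
  have s := (((hh.clm_apply (z2.clm_apply hY)).clm_apply hW).hasFDerivAt.add
    ((((t hY z1 hW).hasFDerivAt.add (t z1 hY hW).hasFDerivAt).sub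
      (t hW hY z1).hasFDerivAt).const_mul 2⁻¹)).congr_of_eventuallyEq (La_ev r hy)
  rw [s.fderiv]
  simp only [add_apply, smul_apply, sub_apply, smul_eq_mul, fa2 hh (z2.clm_apply hY) hW,
    fa1 z2 hY, fa3 hT hY z1 hW, fa3 hT z1 hY hW, fa3 hT hW hY z1, dC, C1_ap]
  ring

theorem curv (r : Rp g h D) (hy : y ∈ D) (hX : DifferentiableAt ℝ X y)
    (hY : DifferentiableAt ℝ Y y) (hZ : ContDiffAt ℝ 2 Z y) (hW : DifferentiableAt ℝ W y) :
    Rm h y (X y) (Y y) (Z y) (W y) = fderiv ℝ (La h Y Z W) y (X y) -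
      fderiv ℝ (La h X Z W) y (Y y) - h y (nb h Z y (Y y)) (nb h W y (X y)) +
      h y (nb h Z y (X y)) (nb h W y (Y y)) - h y (nb h Z y (lieBracket ℝ X Y y)) (W y) := by
  have gs : ∀ a b, Gm h y (a - b) (Z y) = Gm h y a (Z y) - Gm h y b (Z y) := fun a b => by
    rw [sub_eq_add_neg, Gm_add1, ← neg_one_smul ℝ b, Gm_smul1, neg_one_smul, sub_eq_add_neg]
  have g2 : ∀ a b c, h y c (Gm h y a b) = C1 h y a b c := fun a b c => by
    rw [r.symm y hy, r.gm hy]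
  rw [La_fd r hy hY hZ hW, La_fd r hy hX hZ hW, (hZ.isSymmSndFDerivAt (by simp)).eq (Y y) (X y)]
  simp only [Rm, nb, VectorField.lieBracket, gs, map_add, map_sub, add_apply, sub_apply,
    r.gm hy _ _ (W y), r.gm hy _ _ (fderiv ℝ W y _), g2 _ _ (fderiv ℝ Z y _), C1_ap]
  rw [r.dsym hy (W y) (X y), r.dsym hy (W y) (Y y), r.dsym hy (X y) (W y), r.dsym hy (Y y) (W y),
    r.dsym hy (fderiv ℝ Z y (X y)) (Y y), r.dsym hy (fderiv ℝ Z y (Y y)) (X y)]
  ring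

theorem gram_exp {T : B2} (hs : ∀ a b, T a b = T b a) {v : Fin 4 → R4} {k : Fin 4 → Fin 4 → ℝ}
    (hk : ∀ a b, ∑ c, T (v a) (v c) * k c b = if a = b then 1 else 0) (u w : R4) :
    T u w = ∑ p, ∑ q, T u (v p) * (k p q * T w (v q)) := by
  have d : Dual T v fun q => ∑ p, k p q • v p := fun a b => by
    rw [← hk]; simp only [map_sum, map_smul, smul_eq_mul, mul_comm]
  conv_lhs => rw [d.exp u]
  simp only [map_sum, map_smul, sum_apply, smul_apply, smul_eq_mul, Finset.sum_mul]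
  rw [Finset.sum_comm]
  refine Finset.sum_congr rfl fun p _ => Finset.sum_congr rfl fun q _ => ?_
  rw [hs (v q)]; ring

end pt

section fam
variable {J E : Type} [NormedAddCommGroup E] [NormedSpace ℝ E] {n : ℕ} {x : J → E}

theorem o_prod {ι : Type} (s : Finset ι) {f : ι → J → E → ℝ} (h : ∀ i ∈ s, Oj n x (f i) 1) :
    Oj n x (fun j y => ∏ i ∈ s, f i j y) 1 := by
  classical
  induction s using Finset.induction_on with
  | empty => exact (Oj.cst 1).congr' (by simp)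
  | insert a s ha ih =>
    exact (o_mull (h a (Finset.mem_insert_self _ _))
      (ih fun i hi => h i (Finset.mem_insert_of_mem hi))).congr' fun _ _ => Finset.prod_insert ha

theorem o_det {ι : Type} [Fintype ι] [DecidableEq ι] {A : J → E → Matrix ι ι ℝ}
    (h : ∀ a b, Oj n x (fun j y => A j y a b) 1) : Oj n x (fun j y => (A j y).det) 1 :=
  (Oj.sum Finset.univ (fun _ => zero_le_one) fun σ _ =>
    o_sm (((Equiv.Perm.sign σ : ℤˣ) : ℤ) : ℝ) (o_prod Finset.univ fun i _ => h (σ i) i)).congr'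
    fun _ _ => Matrix.det_apply' _

/-- The inverse of a matrix whose determinant is bounded below. -/
theorem o_minv {ι : Type} [Fintype ι] [DecidableEq ι] {A : J → E → Matrix ι ι ℝ}
    (h : ∀ a b, Oj n x (fun j y => A j y a b) 1) {c : ℝ} (c0 : 0 < c)
    (hc : ∀ j, c ≤ |(A j (x j)).det|) : (∀ a b, Oj n x (fun j y => (A j y)⁻¹ a b) 1) ∧
      ∀ j, ∀ᶠ y in 𝓝 (x j), A j y * (A j y)⁻¹ = 1 := by
  have d := o_det h
  have e : ∀ j, ∀ᶠ y in 𝓝 (x j), (A j y).det ≠ 0 := fun j =>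
    (d.sm j).continuousAt.eventually_ne (abs_pos.1 (c0.trans_le (hc j)))
  have i := o_mull d (o_inv (o_mull d d) (mul_pos c0 c0) fun j =>
    (mul_self_le_mul_self c0.le (hc j)).trans_eq (abs_mul_abs_self _))
  refine ⟨fun a b => (o_mull i (o_det (A := fun j y => (A j y).updateRow b (Pi.single a 1))
    fun p q => ?_)).congr fun j => (e j).mono fun y hy => ?_,
    fun j => (e j).mono fun y hy => Matrix.mul_nonsing_inv _ hy.isUnit⟩
  · by_cases k : p = b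
    · exact (Oj.cst ((Pi.single a 1 : ι → ℝ) q)).congr' fun j y => by rw [k, Matrix.updateRow_self]
    · exact (h p q).congr' fun j y => by rw [Matrix.updateRow_ne k]
  · simp only [Matrix.inv_def, Ring.inverse_eq_inv', Matrix.smul_apply, smul_eq_mul,
      Matrix.adjugate_apply]
    field_simp

/-- The products of the vectors of a frame. -/
def Gr (g : Tw) (F : Fin 4 → R4 → R4) (a b : Fin 4) (y : R4) : ℝ := g y (F a y) (F b y)

/-- A family of frames F, in charts Θ; F' are the vectors in the charts. -/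
structure Fam (x : J → E) (g : J → Tw) (D : J → Set R4) (Θ : J → E → R4)
    (F : J → Fin 4 → R4 → R4) (F' : Fin 4 → J → E → E) (C : Fin 4 → Fin 4 → Fin 4 → J → E → ℝ)
    (Gi : Fin 4 → Fin 4 → J → E → ℝ) : Prop where
  op : ∀ j, IsOpen (D j)
  met : ∀ j, Met (g j) (D j)
  mem : ∀ j, Θ j (x j) ∈ D j
  sΘ : ∀ j, ContDiffAt ℝ ∞ (Θ j) (x j)
  sF : ∀ j a, ContDiffAt ℝ ∞ (F j a) (Θ j (x j))
  lift : ∀ j a, ∀ᶠ ξ in 𝓝 (x j), fderiv ℝ (Θ j) ξ (F' a j ξ) = F j a (Θ j ξ)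
  br : ∀ j a b, ∀ᶠ ξ in 𝓝 (x j),
    lieBracket ℝ (F j a) (F j b) (Θ j ξ) = ∑ c, C a b c j ξ • F j c (Θ j ξ)
  inv : ∀ j, ∀ᶠ ξ in 𝓝 (x j), ∀ a b,
    ∑ c, Gr (g j) (F j) a c (Θ j ξ) * Gi c b j ξ = if a = b then 1 else 0

variable {g : J → Tw} {D : J → Set R4} {Θ : J → E → R4} {F : J → Fin 4 → R4 → R4}
  {F' : Fin 4 → J → E → E} {C : Fin 4 → Fin 4 → Fin 4 → J → E → ℝ}
  {Gi : Fin 4 → Fin 4 → J → E → ℝ} {m : J → ℝ} {K : ℝ}

theorem Fam.ev (k : Fam x g D Θ F F' C Gi) (j : J) : ∀ᶠ ξ in 𝓝 (x j), Θ j ξ ∈ D j ∧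
    (∀ a, ContDiffAt ℝ 2 (F j a) (Θ j ξ)) ∧ ∀ a b, Gr (g j) (F j) a b =ᶠ[𝓝 (Θ j ξ)]
      fun z => tb (g j) z (F j a z) (F j b z) := by
  filter_upwards [(k.sΘ j).continuousAt.eventually ((k.op j).mem_nhds (k.mem j)),
    (k.sΘ j).continuousAt.eventually (eventually_all.2 fun a =>
      ((k.sF j a).of_le (le_inf 2)).eventually (by simp))] with ξ h1 h2
  refine ⟨h1, h2, fun a b => ?_⟩
  filter_upwards [(k.op j).mem_nhds h1] with z hz using (rp_tb (k.op j) (k.met j)).eq z hz _ _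

theorem Fam.o_La (k : Fam x g D Θ F F' C Gi)
    (oG : ∀ a b, Oj n x (fun j ξ => Gr (g j) (F j) a b (Θ j ξ)) 1)
    (oD : ∀ a b c, Oj n x (fun j ξ => fderiv ℝ (Gr (g j) (F j) b c) (Θ j ξ) (F j a (Θ j ξ))) m)
    (oC : ∀ a b c, Oj n x (C a b c) m) (a b c : Fin 4) :
    Oj n x (fun j ξ => La (tb (g j)) (F j a) (F j b) (F j c) (Θ j ξ)) m := by
  have s : ∀ a b c, Oj n x (fun j ξ => ∑ o, C a b o j ξ * Gr (g j) (F j) o c (Θ j ξ)) m :=
    fun a b c => Oj.sum _ (oC 0 0 0).nn fun o _ => o_mull (oC a b o) (oG o c)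
  refine (o_sm 2⁻¹ ((((((oD a b c).add (oD b a c)).sub (oD c a b)).add (s a b c)).sub
    (s a c b)).sub (s b c a))).congr fun j => ?_
  filter_upwards [k.ev j, k.br j a b, k.br j a c, k.br j b c] with ξ ⟨h1, h2, h3⟩ b1 b2 b3
  have d := fun a => (h2 a).differentiableAt (by simp)
  rw [koszul (rp_tb (k.op j) (k.met j)) h1 (d a) (d b) (d c), b1, b2, b3]
  simp only [(h3 _ _).fderiv_eq, (h3 _ _).eq_of_nhds, map_sum, map_smul, sum_apply, smul_apply,
    smul_eq_mul]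

/-- The curvature on the frame. -/
theorem Fam.cur (k : Fam x g D Θ F F' C Gi) (o1 : ∀ a, Oj n x (F' a) 1)
    (oG : ∀ a b, Oj (n + 1) x (fun j ξ => Gr (g j) (F j) a b (Θ j ξ)) 1)
    (oD : ∀ a b c,
      Oj (n + 1) x (fun j ξ => fderiv ℝ (Gr (g j) (F j) b c) (Θ j ξ) (F j a (Θ j ξ))) m)
    (oC : ∀ a b c, Oj (n + 1) x (C a b c) m) (oi : ∀ a b, Oj n x (Gi a b) 1)
    (hm : ∀ j, m j ≤ K) (a b c d : Fin 4) : Oj n x (fun j ξ => Rm (tb (g j)) (Θ j ξ)
      (F j a (Θ j ξ)) (F j b (Θ j ξ)) (F j c (Θ j ξ)) (F j d (Θ j ξ))) m := by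
  have L := k.o_La oG oD oC
  have m0 := (oC 0 0 0).nn
  have w : ∀ {f : J → E → ℝ}, Oj n x f (m * m) → Oj n x f m := fun h =>
    h.wt (c := K) m0 fun j => mul_le_mul_of_nonneg_right (hm j) (m0 j)
  have q : ∀ a b c d, Oj n x (fun j ξ => ∑ p, ∑ q, La (tb (g j)) (F j b) (F j c) (F j p) (Θ j ξ) *
      (Gi p q j ξ * La (tb (g j)) (F j a) (F j d) (F j q) (Θ j ξ))) m := fun a b c d =>
    Oj.sum _ m0 fun p _ => Oj.sum _ m0 fun q _ =>
      w (o_mul (L b c p).pred (o_mulr (oi p q) (L a d q).pred))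
  refine ((((((L b c d).fd.apl (o1 a)).sub ((L a c d).fd.apl (o1 b))).sub (q a b c d)).add
    (q b a c d)).sub (Oj.sum Finset.univ m0 fun o _ =>
      w (o_mul (oC a b o).pred (L o c d).pred))).congr fun j => ?_
  have r := rp_tb (k.op j) (k.met j)
  have t := fun a b c => P354YI.fd_comp (La_cd r (k.mem j) (k.sF j a) (k.sF j b) (k.sF j c)) (k.sΘ j)
  filter_upwards [k.ev j, k.br j a b, k.inv j, k.lift j a, k.lift j b, t b c d, t a c d]
    with ξ ⟨h1, h2, h3⟩ b1 i l1 l2 t1 t2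
  have d := fun a => (h2 a).differentiableAt (by simp)
  simp only [(h3 _ _).eq_of_nhds] at i
  rw [curv r h1 (d a) (d b) (h2 c) (d _), t1, t2, b1, nb_sum,
    gram_exp (r.symm _ h1) i (nb _ _ _ (F j b _)), gram_exp (r.symm _ h1) i (nb _ _ _ (F j a _))]
  simp only [ContinuousLinearMap.comp_apply, l1, l2, La, map_sum, map_smul, sum_apply, smul_apply,
    smul_eq_mul]

/-- The same with a lower bound for the determinant of the products. -/
theorem kos (op : ∀ j, IsOpen (D j)) (met : ∀ j, Met (g j) (D j)) (mem : ∀ j, Θ j (x j) ∈ D j)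
    (sΘ : ∀ j, ContDiffAt ℝ ∞ (Θ j) (x j)) (sF : ∀ j a, ContDiffAt ℝ ∞ (F j a) (Θ j (x j)))
    (lift : ∀ j a, ∀ᶠ ξ in 𝓝 (x j), fderiv ℝ (Θ j) ξ (F' a j ξ) = F j a (Θ j ξ))
    (br : ∀ j a b, ∀ᶠ ξ in 𝓝 (x j),
      lieBracket ℝ (F j a) (F j b) (Θ j ξ) = ∑ c, C a b c j ξ • F j c (Θ j ξ))
    (o1 : ∀ a, Oj n x (F' a) 1)
    (oG : ∀ a b, Oj (n + 1) x (fun j ξ => Gr (g j) (F j) a b (Θ j ξ)) 1) {c0 : ℝ} (p0 : 0 < c0)
    (hd : ∀ j, c0 ≤ |(Matrix.of fun a b => Gr (g j) (F j) a b (Θ j (x j))).det|)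
    (oD : ∀ a b c,
      Oj (n + 1) x (fun j ξ => fderiv ℝ (Gr (g j) (F j) b c) (Θ j ξ) (F j a (Θ j ξ))) m)
    (oC : ∀ a b c, Oj (n + 1) x (C a b c) m) (hm : ∀ j, m j ≤ K) (a b c d : Fin 4) :
    Oj n x (fun j ξ => Rm (tb (g j)) (Θ j ξ) (F j a (Θ j ξ)) (F j b (Θ j ξ)) (F j c (Θ j ξ))
      (F j d (Θ j ξ))) m := by
  obtain ⟨i, e⟩ := o_minv (A := fun j ξ => Matrix.of fun a b => Gr (g j) (F j) a b (Θ j ξ))
    (fun a b => (oG a b).pred) p0 hd
  exact Fam.cur ⟨op, met, mem, sΘ, sF, lift, br, fun j => (e j).mono fun ξ h a b => by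
    simpa only [Matrix.mul_apply, Matrix.of_apply, Matrix.one_apply] using
      congrFun (congrFun h a) b⟩ o1 oG oD oC i hm a b c d

theorem Rm_exp (h : R4 → B2) (y : R4) (v : Fin 4 → R4) (k1 k2 k3 k4 : Fin 4 → ℝ) :
    Rm h y (∑ a, k1 a • v a) (∑ a, k2 a • v a) (∑ a, k3 a • v a) (∑ a, k4 a • v a) =
      ∑ a, ∑ b, ∑ c, ∑ d, k1 a * (k2 b * (k3 c * (k4 d * Rm h y (v a) (v b) (v c) (v d)))) := by
  have l1 : ∀ b c d, IsLinearMap ℝ fun a => Rm h y a b c d := fun b c d =>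
    ⟨fun _ _ => by simp only [Rm, dC, Gm_add1, map_add, add_apply]; ring,
      fun _ _ => by simp only [Rm, dC, Gm_smul1, map_smul, smul_apply, smul_eq_mul]; ring⟩
  have l2 : ∀ a c d, IsLinearMap ℝ fun b => Rm h y a b c d := fun a c d =>
    ⟨fun _ _ => by simp only [Rm, dC, Gm_add1, map_add, add_apply]; ring,
      fun _ _ => by simp only [Rm, dC, Gm_smul1, map_smul, smul_apply, smul_eq_mul]; ring⟩
  have l3 : ∀ a b d, IsLinearMap ℝ fun c => Rm h y a b c d := fun a b d =>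
    ⟨fun _ _ => by simp only [Rm, dC, Gm_add2, map_add, add_apply]; ring,
      fun _ _ => by simp only [Rm, dC, Gm_smul2, map_smul, smul_apply, smul_eq_mul]; ring⟩
  have l4 : ∀ a b c, IsLinearMap ℝ fun d => Rm h y a b c d := fun a b c =>
    ⟨fun _ _ => by simp only [Rm, dC, Gm_add2, map_add, add_apply]; ring,
      fun _ _ => by simp only [Rm, dC, Gm_smul2, map_smul, smul_apply, smul_eq_mul]; ring⟩
  have s : ∀ {f : R4 → ℝ}, IsLinearMap ℝ f → ∀ k : Fin 4 → ℝ,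
      f (∑ a, k a • v a) = ∑ a, k a * f (v a) := fun hf k =>
    (map_sum (hf.mk' _) _ _).trans (Finset.sum_congr rfl fun _ _ => hf.map_smul _ _)
  simp only [← Finset.mul_sum]
  rw [s (l1 _ _ _)]
  refine Finset.sum_congr rfl fun a _ => congrArg _ ?_
  rw [s (l2 _ _ _)]
  refine Finset.sum_congr rfl fun b _ => congrArg _ ?_
  rw [s (l3 _ _ _)]
  refine Finset.sum_congr rfl fun c _ => congrArg _ ?_
  rw [s (l4 _ _ _)]

/-- The curvature on vectors with bounded components in the frame. -/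
theorem cur_ext {h : J → R4 → B2} {p : J → E → R4} {v V : Fin 4 → J → E → R4}
    {k : Fin 4 → Fin 4 → J → E → ℝ}
    (hR : ∀ a b c d, Oj n x (fun j ξ => Rm (h j) (p j ξ) (v a j ξ) (v b j ξ) (v c j ξ) (v d j ξ)) m)
    (hk : ∀ i a, Oj n x (k i a) 1)
    (hV : ∀ j i, ∀ᶠ ξ in 𝓝 (x j), V i j ξ = ∑ a, k i a j ξ • v a j ξ) (a b c d : Fin 4) :
    Oj n x (fun j ξ => Rm (h j) (p j ξ) (V a j ξ) (V b j ξ) (V c j ξ) (V d j ξ)) m := by
  have m0 := (hR 0 0 0 0).nn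
  refine (Oj.sum Finset.univ m0 fun a' _ => Oj.sum Finset.univ m0 fun b' _ =>
    Oj.sum Finset.univ m0 fun c' _ => Oj.sum Finset.univ m0 fun d' _ => o_mulr (hk a a')
      (o_mulr (hk b b') (o_mulr (hk c c') (o_mulr (hk d d') (hR a' b' c' d'))))).congr fun j => ?_
  filter_upwards [hV j a, hV j b, hV j c, hV j d] with ξ h1 h2 h3 h4
  rw [h1, h2, h3, h4, Rm_exp]

end fam

end Vale.Agent.P354LF
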