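import Vale.Agent.P354LF.Ham2
import Vale.Agent.P354SC.Defs2
import Vale.Agent.P354XY.Fr

/-!
HAM: the Hamilton function in the far chart.
-/

set_option linter.all false
set_option maxSynthPendingDepth 3

open scoped ContDiff
open Set Filter Topology

noncomputable section

namespace Vale.Agent.P354LF

open Vale.Agent.P354n (R4)
open Vale.Agent.P354R (Met)
open Vale.Agent.P354XE (Tw)
open Vale.Agent.P354YI (Oj)
open Vale.Agent.P354YQ (SA JB JD)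
open Vale.Agent.P354SA
open Vale.Agent.P354SC (o_mul o_mull o_mulr o_sm o_inv o_par o_bd o_lin Nv φN Hy d3 qq qq_pos g0 HAM
  cR cY)
open Vale.Agent.P354XY (O3 o_c3 Fq4 kN d3_zero d3_cd d3_ev fd_d3 Al_ap)

/-- The lower bounds at the base point. -/
def Lo (c0 : ℝ) (g : Tw) (β : Fin 2 → R4 → ℝ) (q : Q6) : Prop :=
  c0 ≤ (en g β q.1.2.1 q).D ∧ (en g β q.1.2.1 q).Lw

theorem Lo.x0 {c0 : ℝ} {g : Tw} {β : Fin 2 → R4 → ℝ} {q : Q6} (h : Lo c0 g β q) :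
    g q.1 e1 (Nv β q.1) ≤ -(1 / 2) := by
  have : g q.1 e1 (Nv β q.1) + 1 ≤ 1 / 10 := (abs_le.1 h.2.1).2
  linarith

section fam
variable {J E : Type} [NormedAddCommGroup E] [NormedSpace ℝ E] {n : ℕ} {K c0 : ℝ} {g : J → Tw}
  {D : J → Set R4} {β : J → Fin 2 → R4 → ℝ} {q : J → Q6} {l e w d π : J → ℝ}

/-- A family of points with the bounds. -/
structure Fb (n : ℕ) (K c0 : ℝ) (g : J → Tw) (D : J → Set R4) (β : J → Fin 2 → R4 → ℝ) (q : J → Q6)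
    (l e w d : J → ℝ) : Prop where
  op : ∀ j, IsOpen (D j)
  met : ∀ j, Met (g j) (D j)
  mem : ∀ j, (q j).1 ∈ D j
  r1 : ∀ j, 1 ≤ (q j).1.2.1
  he : ∀ j, e j ∈ Icc (0 : ℝ) 1
  hw : ∀ j, w j ∈ Icc (0 : ℝ) 1
  hd : ∀ j, d j ∈ Icc (0 : ℝ) 3
  hy : ∀ j, Hy n K (e j) (w j) (d j) (l j) (g j) (β j) (q j).1
  c0 : 0 < c0 ∧ ∀ j, c0 ≤ (en (g j) (β j) (q j).1.2.1 (q j)).D

/-- The chart: the point is d3 (Λ ξ), the gradient is q.2 + r π (L ξ). -/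
def Qc (Λ : E →L[ℝ] R4) (L : E →L[ℝ] Y2) (l π : ℝ) (q : Q6) (ξ : E) : Q6 :=
  (d3 l q.1 (Λ ξ), q.2 + (q.1.2.1 * π) • L ξ)

theorem Qc_zero (Λ : E →L[ℝ] R4) (L : E →L[ℝ] Y2) (l π : ℝ) (q : Q6) : Qc Λ L l π q 0 = q := by
  simp [Qc, d3_zero]

theorem Qc_cd (Λ : E →L[ℝ] R4) (L : E →L[ℝ] Y2) (l π : ℝ) (q : Q6) : ContDiff ℝ ∞ (Qc Λ L l π q) :=
  ((d3_cd _ _).comp Λ.contDiff).prodMk (contDiff_const.add (L.contDiff.const_smul _))

theorem o_lc {V : Type} [NormedAddCommGroup V] [NormedSpace ℝ V] (Λ : E →L[ℝ] R4)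
    {f : J → R4 → V} {μ : J → ℝ} (h : Oj n 0 f μ) : Oj n (0 : J → E) (fun j ξ => f j (Λ ξ)) μ :=
  Oj.comp (f := fun _ => Λ) (fun _ => Λ.contDiff.contDiffAt) n
    ((Oj.cst Λ).congr' fun _ _ => Λ.fderiv) (by simp only [Pi.zero_apply, map_zero]; exact h)

namespace Fb
variable (h : Fb n K c0 g D β q l e w d) (Λ : E →L[ℝ] R4) (L : E →L[ℝ] Y2)
include h

theorem r0 (j : J) : 0 < (q j).1.2.1 := one_pos.trans_le (h.r1 j)

theorem hf (hπ : ∀ j, π j ∈ Icc (0 : ℝ) 1) (hp : ∀ j, ‖(q j).2‖ ≤ 2 * ((q j).1.2.1 * π j)) :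
    Hf n 0 (fun j ξ => en (g j) (β j) (q j).1.2.1 (Qc Λ L (l j) (π j) (q j) ξ))
      (fun j => (q j).1.2.1) (fun j => (q j).1.2.1⁻¹) (e * w) (e * d) π c0 := by
  have r0 := h.r0
  have i0 := fun j => inv_pos.2 (r0 j)
  have i1 := fun j => mul_inv_cancel₀ (r0 j).ne'
  have ew := fun j => mul_nonneg (h.he j).1 (h.hw j).1
  have ed := fun j => mul_nonneg (h.he j).1 (h.hd j).1
  have oi : Oj n (0 : J → E) (fun j _ => (q j).1.2.1⁻¹) fun j => (q j).1.2.1⁻¹ :=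
    o_par fun j => (i0 j).le
  have oy : Oj n (0 : J → E) (fun j ξ => (q j).1.2.1⁻¹ • (Qc Λ L (l j) (π j) (q j) ξ).2) π :=
    ((Oj.const (v := fun j => (q j).1.2.1⁻¹ • (q j).2) (fun j => (hπ j).1) ⟨2, fun j => by
      rw [norm_smul, Real.norm_of_nonneg (i0 j).le, inv_mul_le_iff₀ (r0 j)]
      linarith [hp j]⟩).add ((o_par fun j => (hπ j).1).smull (o_lin L))).congr' fun j ξ => by
        rw [Qc, smul_add, smul_smul, inv_mul_cancel_left₀ (r0 j).ne']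
  have op : ∀ a, Oj n (0 : J → E) (fun j ξ =>
      (en (g j) (β j) (q j).1.2.1 (Qc Λ L (l j) (π j) (q j) ξ)).p a) π := fun a => by
    fin_cases a
    exacts [oy.clm (.fst ℝ ℝ ℝ), oy.clm (.snd ℝ ℝ ℝ)]
  have ob := fun a => o_lc Λ (o_c3 (fun j => (h.hy j).be a) ew)
  refine ⟨fun j => ⟨i0 j, inv_le_one_of_one_le₀ (h.r1 j), inv_mul_cancel₀ (r0 j).ne', ew j,
    mul_le_one₀ (h.he j).2 (h.hw j).1 (h.hw j).2, ed j,
    (mul_le_of_le_one_left (h.hd j).1 (h.he j).2).trans (h.hd j).2, (hπ j).1, (hπ j).2, h.r1 j⟩,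
    (o_lc Λ (o_c3 (fun j => (h.hy j).A) fun j => pow_nonneg (i0 j).le 3)).mono le_rfl fun j => ?_,
    o_lc Λ (o_c3 (fun j => (h.hy j).x) fun j => add_nonneg (i0 j).le (ew j)),
    (o_lc Λ (o_c3 (fun j => (h.hy j).ph) fun j => add_nonneg (i0 j).le (mul_nonneg (h.he j).1
      (add_nonneg zero_le_one (mul_nonneg (r0 j).le (h.hw j).1))))).wt (c := 2)
      (fun j => add_nonneg zero_le_one (mul_nonneg (r0 j).le (ew j))) fun j => ?_,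
    ((o_mul (o_par fun j => (r0 j).le) ((o_mul (op 0) (ob 0)).add (o_mul (op 1) (ob 1)))).mono le_rfl
      fun j => mul_le_mul_of_nonneg_left (mul_le_of_le_one_left (ew j) (hπ j).2) (r0 j).le).congr'
      fun j ξ => ?_,
    fun a => o_mull oi (o_lc Λ (o_c3 (c := 1) (fun j => by simpa using (h.hy j).ze a)
      fun _ => zero_le_one)),
    fun a => (o_mul oi (o_lc Λ (o_c3 (fun j => (h.hy j).ta a) fun j =>
      add_nonneg zero_le_one (mul_nonneg (ed j) (r0 j).le)))).mono le_rfl fun j => le_of_eq ?_, op,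
    fun a b => (o_mul (o_mul oi oi) (o_lc Λ (o_c3 (fun j => (h.hy j).ga a b)
      fun _ => sq_nonneg _))).mono le_rfl fun j => le_of_eq ?_,
    h.c0.1, fun j => by simpa only [Pi.zero_apply, Qc_zero] using h.c0.2 j⟩
  · rw [pow_succ, sq]
    exact mul_le_of_le_one_right (mul_self_nonneg _) (inv_le_one_of_one_le₀ (h.r1 j))
  · have := inv_le_one_of_one_le₀ (h.r1 j)
    have := mul_nonneg (r0 j).le (ew j)
    simp only [Pi.add_apply, Pi.mul_apply, Pi.one_apply]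
    nlinarith [(h.he j).2]
  · have := (r0 j).ne'
    simp [en, dot, Nv, Qc]
    field_simp
  · simp only [Pi.add_apply, Pi.mul_apply]
    linear_combination e j * d j * i1 j
  · have := (r0 j).ne'
    simp only [Pi.mul_apply, Pi.one_apply]
    field_simp

variable (hπ : ∀ j, π j ∈ Icc (0 : ℝ) 1) (hp : ∀ j, ‖(q j).2‖ ≤ 2 * ((q j).1.2.1 * π j))
  (lw : ∀ j, (en (g j) (β j) (q j).1.2.1 (q j)).Lw)
include hπ hp lw

omit h hπ hp in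
theorem lw' (j : J) :
    (en (g j) (β j) (q j).1.2.1 (Qc Λ L (l j) (π j) (q j) ((0 : J → E) j))).Lw := by
  rw [Pi.zero_apply, Qc_zero]; exact lw j

theorem ev (j : J) : ∀ᶠ ξ in 𝓝 (0 : E), ∀ x c, x = Qc Λ L (l j) (π j) (q j) ξ →
    c = en (g j) (β j) (q j).1.2.1 x → x ∈ Ug (g j) (D j) ∧ Hm (g j) x = c.H ∧
      cc (g j) x = c.De * c.s⁻¹ ∧ (Wv (g j) x).2.1 = -c.c1 ∧
      ∀ a, (q j).1.2.1 * yc a (Wv (g j) x + Nv (β j) x.1) = c.wy a := by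
  filter_upwards [(h.hf Λ L hπ hp).ev (lw' Λ L lw) j,
    (Qc_cd Λ L (l j) (π j) (q j)).continuous.fst.continuousAt.eventually
      (p := (· ∈ D j)) (by simp only [Qc_zero]; exact (h.op j).mem_nhds (h.mem j))] with ξ a b
  rintro _ _ rfl rfl
  exact ham_pt (h.op j) (h.met j) b (h.r0 j).ne' rfl a.2.2.2.2.2.2.1 a.2.2.1 a.2.2.2.1 a.2.2.2.2.1

theorem sa {F : Type} [NormedAddCommGroup F] [NormedSpace ℝ F] {f : Q6 → F} (j : J)
    (hf : ∀ x ∈ Ug (g j) (D j), ContDiffAt ℝ ∞ f x) :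
    SA (fun ξ => f (Qc Λ L (l j) (π j) (q j) ξ)) 0 :=
  (h.ev Λ L hπ hp lw j).mono fun ξ k =>
    (hf _ (k _ _ rfl rfl).1).comp ξ (Qc_cd _ _ _ _ _).contDiffAt

end Fb

theorem Qc_dq (l : ℝ) (q ξ : Q6) : Qc (.fst ℝ R4 Y2) (.snd ℝ R4 Y2) l 1 q ξ = dq l q ξ := by
  rw [Qc, mul_one]; rfl

/-- The two facts on W. -/
theorem wfa (h : Fq4 n K g D β (fun j => (q j).1) l e w d) (hp : ∀ j, ‖(q j).2‖ ≤ (q j).1.2.1)
    (p0 : 0 < c0) (lo : ∀ j, Lo c0 (g j) (β j) (q j)) : (∀ j, q j ∈ Ug (g j) (D j)) ∧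
    Oj n (0 : J → Q6) (fun j ξ => (Wv (g j) (dq (l j) (q j) ξ)).2.1 +
      kN (g j) (β j) (dq (l j) (q j) ξ).1) 1 ∧
    ∀ a, Oj n (0 : J → Q6) (fun j ξ => (q j).1.2.1 *
      (yc a (Wv (g j) (dq (l j) (q j) ξ)) + β j a (dq (l j) (q j) ξ).1)) 1 := by
  have b : Fb n K c0 g D β q l e w d :=
    ⟨h.op, h.met, h.mem, h.r1, h.he, h.hw, h.hd, h.hy, p0, fun j => (lo j).1⟩
  have hπ : ∀ j : J, (1 : J → ℝ) j ∈ Icc (0 : ℝ) 1 := fun _ => ⟨zero_le_one, le_rfl⟩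
  have hq : ∀ j, ‖(q j).2‖ ≤ 2 * ((q j).1.2.1 * (1 : J → ℝ) j) := fun j => by
    rw [Pi.one_apply]; linarith [hp j, b.r0 j]
  have k := b.hf (.fst ℝ R4 Y2) (.snd ℝ R4 Y2) hπ hq
  have lw := Fb.lw' (l := l) (π := 1) (.fst ℝ R4 Y2) (.snd ℝ R4 Y2) fun j => (lo j).2
  have ev := b.ev (.fst ℝ R4 Y2) (.snd ℝ R4 Y2) hπ hq fun j => (lo j).2
  have y : ∀ a (v : R4) (j : J) x, yc a (v + Nv (β j) x) = yc a v + β j a x := fun a v j x => by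
    fin_cases a <;> rfl
  simp only [Pi.one_apply, Qc_dq] at k lw ev
  refine ⟨fun j => ?_, ((k.o_h1 lw).add ((o_mull (k.p1 (k.p 0)) (k.o_wy lw 0)).add
    (o_mull (k.p1 (k.p 1)) (k.o_wy lw 1)))).congr fun j => (ev j).mono fun ξ a => ?_,
    fun a => (k.o_wy lw a).congr fun j => (ev j).mono fun ξ t => by
      simpa only [y] using (t _ _ rfl rfl).2.2.2.2 a⟩
  · exact ((ev j).self_of_nhds _ _ (by rw [← Qc_dq, Qc_zero]) rfl).1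
  · obtain ⟨a1, a2, -, -, a3⟩ := a _ _ rfl rfl
    have t := (wv_ap (h.op j) (h.met j) a1).2
    have := (b.r0 j).ne'
    simp only
    rw [← a2, ← a3, ← a3, ← t, y, y]
    simp [xp_ap, dot, en, kN, φN, yc, Nv]
    field_simp
    ring

end fam

theorem D_lo {E K0 : ℝ} : ∃ c0 > 0, ∃ η > 0, ∀ g β (q : Q6) l e w d, 1 ≤ q.1.2.1 → ‖q.1.2.2‖ ≤ E →
    0 ≤ e → q.1.2.1⁻¹ + e ≤ η → Hy 0 K0 e w d l g β q.1 → c0 ≤ (en g β q.1.2.1 q).D := by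
  obtain ⟨t, ht⟩ : ∃ t, t = 4 / (1 + 2 * E ^ 2) ^ 2 := ⟨_, rfl⟩
  have t0 : 0 < t := ht ▸ by positivity
  refine ⟨t ^ 2 / 2, by positivity, t / 4 / (|K0| + 1), by positivity,
    fun g β q l e w d r1 hE e0 hη h => ?_⟩
  have r0 : 0 < q.1.2.1 := one_pos.trans_le r1
  have k : ∀ a b, |(en g β q.1.2.1 q).g a b - g0 a b q.1.2.2| ≤ t / 4 := fun a b => by
    have k := mul_le_mul_of_nonneg_left (h.ga1 a b) (mul_self_nonneg q.1.2.1⁻¹)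
    rw [← abs_of_nonneg (mul_self_nonneg q.1.2.1⁻¹), ← abs_mul,
      abs_of_nonneg (mul_self_nonneg q.1.2.1⁻¹)] at k
    have i0 : 0 ≤ q.1.2.1⁻¹ + e := by positivity
    rw [le_div_iff₀ (by positivity)] at hη
    refine (le_of_eq (congrArg _ ?_)).trans ((k.trans_eq (c := K0 * (q.1.2.1⁻¹ + e)) ?_).trans ?_)
    · simp only [en]
      field_simp
    · field_simp
    · nlinarith [le_abs_self K0]
  have a : t ≤ 4 / qq q.1.2.2 ^ 2 := by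
    have b1 := (norm_fst_le q.1.2.2).trans hE
    have b2 := (norm_snd_le q.1.2.2).trans hE
    rw [ht]
    refine div_le_div_of_nonneg_left (by norm_num) (pow_pos (qq_pos _) 2)
      (pow_le_pow_left₀ (qq_pos _).le ?_ 2)
    rw [Real.norm_eq_abs] at b1 b2
    unfold qq
    linarith [sq_le_sq' (neg_le_of_abs_le b1) (le_of_abs_le b1),
      sq_le_sq' (neg_le_of_abs_le b2) (le_of_abs_le b2)]
  have k0 := (abs_le.1 (k 0 0)).1
  have k1 := (abs_le.1 (k 1 1)).1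
  have k2 := k 0 1
  simp only [g0, if_true, zero_ne_one, if_false, sub_zero] at k0 k1 k2
  have k3 := mul_le_mul (show 3 / 4 * t ≤ _ from by linarith [k0])
    (show 3 / 4 * t ≤ (en g β q.1.2.1 q).g 1 1 by linarith) (by positivity)
    (show 0 ≤ (en g β q.1.2.1 q).g 0 0 by linarith)
  have k4 := abs_mul_abs_self ((en g β q.1.2.1 q).g 0 1) ▸ mul_self_le_mul_self (abs_nonneg _) k2
  unfold En.D
  nlinarith

/-- The data. -/
structure Dt where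
  g : Tw
  D : Set R4
  β : Fin 2 → R4 → ℝ
  q : Q6
  l : ℝ
  e : ℝ
  w : ℝ
  d : ℝ
  π : ℝ

def Dt.Ok (a : Dt) (n : ℕ) (K c0 : ℝ) : Prop :=
  (IsOpen a.D ∧ Met a.g a.D ∧ a.q.1 ∈ a.D ∧ 1 ≤ a.q.1.2.1 ∧ a.e ∈ Icc (0 : ℝ) 1 ∧
    a.w ∈ Icc (0 : ℝ) 1 ∧ a.d ∈ Icc (0 : ℝ) 3 ∧ Hy n K a.e a.w a.d a.l a.g a.β a.q.1 ∧
    c0 ≤ (en a.g a.β a.q.1.2.1 a.q).D) ∧ a.π ∈ Icc (0 : ℝ) 1 ∧ ‖a.q.2‖ ≤ 2 * (a.q.1.2.1 * a.π)

theorem fb_of {n : ℕ} {K c0 : ℝ} (p0 : 0 < c0) {J : Type} {a : J → Dt} (h : ∀ j, (a j).Ok n K c0) :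
    Fb n K c0 (fun j => (a j).g) (fun j => (a j).D) (fun j => (a j).β) (fun j => (a j).q)
      (fun j => (a j).l) (fun j => (a j).e) (fun j => (a j).w) fun j => (a j).d :=
  ⟨fun j => (h j).1.1, fun j => (h j).1.2.1, fun j => (h j).1.2.2.1, fun j => (h j).1.2.2.2.1,
    fun j => (h j).1.2.2.2.2.1, fun j => (h j).1.2.2.2.2.2.1, fun j => (h j).1.2.2.2.2.2.2.1,
    fun j => (h j).1.2.2.2.2.2.2.2.1, p0, fun j => (h j).1.2.2.2.2.2.2.2.2⟩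

/-- The thresholds. -/
theorem thr (K0 E : ℝ) : ∃ r0 ≥ 1, ∃ ε0 ∈ Ioc (0 : ℝ) 1, ∃ c0 > 0, ∀ g D β (q : Q6) l e w d,
    IsOpen D → Met g D → q.1 ∈ D → r0 ≤ q.1.2.1 → ‖q.1.2.2‖ ≤ E → ‖q.2‖ ≤ q.1.2.1 → 1 ≤ l →
    e ∈ Icc 0 ε0 → w ∈ Icc 0 1 → d ∈ Icc 0 3 → Hy 0 K0 e w d l g β q.1 → Lo c0 g β q := by
  obtain ⟨c0, p0, η, η0, k⟩ := D_lo (E := E) (K0 := K0)
  obtain ⟨θ, θ0, t⟩ := ((fb_of p0 (J := {a : Dt // a.Ok 0 K0 c0}) fun j => j.2).hf (0 : ℝ →L[ℝ] R4) 0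
    (fun j => j.2.2.1) fun j => j.2.2.2).lw
  obtain ⟨u, hu⟩ : ∃ u, u = min 1 (min η θ / 2) := ⟨_, rfl⟩
  have u0 : 0 < u := hu ▸ by positivity
  have u1 : u ≤ 1 := hu ▸ min_le_left _ _
  have u2 : u + u ≤ min η θ := by linarith [hu ▸ min_le_right 1 (min η θ / 2)]
  have u3 := one_le_inv₀ u0 |>.2 u1
  refine ⟨u⁻¹, u3, u, ⟨u0, u1⟩, c0, p0, fun g D β q l e w d o m h r hE hp _ he hw hd hy => ?_⟩
  have r1 := u3.trans r
  have s := (add_le_add (inv_le_of_inv_le₀ u0 r) he.2).trans u2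
  have a := k g β q l e w d r1 hE he.1 (s.trans (min_le_left _ _)) hy
  refine ⟨a, ?_⟩
  simpa only [Pi.zero_apply, Qc_zero] using t ⟨⟨g, D, β, q, l, e, w, d, 1⟩, ⟨o, m, h, r1,
    ⟨he.1, he.2.trans u1⟩, hw, hd, hy, a⟩, ⟨zero_le_one, le_rfl⟩, by linarith⟩
    ((add_le_add le_rfl (mul_le_of_le_one_right he.1 hw.2)).trans (s.trans (min_le_right _ _)))

def L5 : E5 →L[ℝ] R4 := (0 : E5 →L[ℝ] ℝ).prod ((ContinuousLinearMap.fst ℝ ℝ _).prod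
  ((ContinuousLinearMap.fst ℝ Y2 Y2).comp (.snd ℝ ℝ _)))
def P5 : E5 →L[ℝ] Y2 := (ContinuousLinearMap.snd ℝ Y2 Y2).comp (.snd ℝ ℝ _)

theorem o_ph {J : Type} {n : ℕ} {K c0 : ℝ} {g : J → Tw} {D : J → Set R4} {β : J → Fin 2 → R4 → ℝ}
    {q : J → Q6} {l e w d : J → ℝ} (h : Fb n K c0 g D β q l e w d) :
    Oj n (0 : J → E5) (fun j => fderiv ℝ fun ξ => φN (g j) (β j) (d3 (l j) (q j).1 (L5 ξ)))
      fun j => (q j).1.2.1⁻¹ + e j * (d j + (q j).1.2.1 * w j) := by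
  have n0 := fun j => add_nonneg (inv_pos.2 (h.r0 j)).le (mul_nonneg (h.he j).1
    (add_nonneg (h.hd j).1 (mul_nonneg (h.r0 j).le (h.hw j).1)))
  have a := fun a => o_lc L5 (o_c3 (fun j => (h.hy j).ph2 a) n0)
  refine ((((o_lc L5 (o_mull (o_c3 (fun j => (h.hy j).ph1) n0) P354SC.Adm.o_xi)).smull
    (Oj.cst (cR.comp L5))).add ((a 0).smull (Oj.cst ((P354SC.cy 0).comp L5)))).add
    ((a 1).smull (Oj.cst ((P354SC.cy 1).comp L5)))).congr fun j => ?_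
  have t : Tendsto L5 (𝓝 0) (𝓝 0) := by simpa using L5.continuous.tendsto 0
  filter_upwards [t.eventually (d3_ev (l := l j) (P354YI.ev_dif (h.hy j).ph.1)),
    continuous_fst.continuousAt.eventually_const_lt (show (-1 : ℝ) < (0 : E5).1 by simp)] with ξ a b
  refine ContinuousLinearMap.ext fun v => ?_
  have := (h.r0 j).ne'
  have : 1 + ξ.1 ≠ 0 := by linarith
  rw [show fderiv ℝ (fun ξ => φN (g j) (β j) (d3 (l j) (q j).1 (L5 ξ))) ξ = _ from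
    ((a.hasFDerivAt.comp _ (P354XY.d3_fd _ _ _)).comp ξ L5.hasFDerivAt).fderiv]
  simp only [ContinuousLinearMap.comp_apply, add_apply, smul_apply, smul_eq_mul, dv]
  rw [show P354XY.Al (l j) (q j).1.2.1 (L5 v) = ((q j).1.2.1 * v.1) • e1 + v.2.1.1 • ey 0 +
    v.2.1.2 • ey 1 by ext <;> simp [Al_ap, L5, e1, ey]]
  simp [d3, L5, P354SC.cy]
  field_simp

/-- **HAM.** -/
theorem ham : HAM := by
  intro K0 E
  obtain ⟨r0, r1, ε0, ε1, c0, p0, t⟩ := thr K0 E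
  refine ⟨1, le_rfl, r0, ε0, ε1.1, fun n K => ?_⟩
  let J := {a : Dt // a.Ok (n + 2) K c0 ∧ (en a.g a.β a.q.1.2.1 a.q).Lw}
  have b := fb_of p0 (J := J) fun j => j.2.1
  have lw := fun j : J => j.2.2
  have π1 : ∀ j : J, (1 : J → ℝ) j ∈ Icc (0 : ℝ) 1 := fun _ => ⟨zero_le_one, le_rfl⟩
  have q1 : ∀ j : J, ‖j.1.q.2‖ ≤ 2 * (j.1.q.1.2.1 * (1 : J → ℝ) j) := fun j => j.2.1.2.2.trans
    (mul_le_mul_of_nonneg_left (mul_le_mul_of_nonneg_left j.2.1.2.1.2 (b.r0 j).le) zero_le_two)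
  have π2 := fun j : J => j.2.1.2.1
  have q2 := fun j : J => j.2.1.2.2
  have k1 := b.hf (.fst ℝ R4 Y2) (.snd ℝ R4 Y2) π1 q1
  have e1 := b.ev (.fst ℝ R4 Y2) (.snd ℝ R4 Y2) π1 q1 lw
  have s1 := fun (f : Q6 → ℝ) j => b.sa (.fst ℝ R4 Y2) (.snd ℝ R4 Y2) π1 q1 lw (f := f) j
  have l1 := Fb.lw' (l := fun j : J => j.1.l) (π := 1) (.fst ℝ R4 Y2) (.snd ℝ R4 Y2) lw
  have k2 := b.hf L5 P5 π2 q2
  have e2 := b.ev L5 P5 π2 q2 lw
  have l2 := Fb.lw' (l := fun j : J => j.1.l) (π := fun j : J => j.1.π) L5 P5 lw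
  obtain ⟨C1, c1, h1⟩ := ((k1.o_H l1).congr fun j => (e1 j).mono fun ξ a => (a _ _ rfl rfl).2.1).bd
  obtain ⟨C2, c2, h2⟩ := ((k1.o_cc l1).congr (g := fun j ξ => cc j.1.g _ - 1) fun j =>
    (e1 j).mono fun ξ a => congrArg (· - 1) (a _ _ rfl rfl).2.2.1).bd
  have o3 := (k2.o_H0 l2).congr (g := fun j ξ => Hm j.1.g (Qc L5 P5 j.1.l j.1.π j.1.q ξ) -
    (1 - φN j.1.g j.1.β (d3 j.1.l j.1.q.1 (L5 ξ))) / 2) fun j =>
      (e2 j).mono fun ξ a => congrArg (· - _) (a _ _ rfl rfl).2.1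
  obtain ⟨C3, c3, h3⟩ := o3.val
  obtain ⟨C4, c4, h4⟩ := ((o3.fd.sub ((Oj.cst (2⁻¹ : ℝ)).smulr ((o_ph b).pred.mono le_rfl fun j => by
    simp only [Pi.add_apply, Pi.mul_apply]
    linarith [mul_self_nonneg j.1.π]))).congr
      (g := fun j => fderiv ℝ fun ξ => Hm j.1.g (Qc L5 P5 j.1.l j.1.π j.1.q ξ)) fun j => by
    filter_upwards [P354YI.ev_dif (o3.sm j), P354YI.ev_dif (k2.f.sm j)] with ξ a1 a2
    refine ((a1.hasFDerivAt.sub (a2.hasFDerivAt.const_smul (2⁻¹ : ℝ))).add_const 2⁻¹).congr_of_eventuallyEq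
      (.of_forall fun x => ?_) |>.fderiv
    simp only [Pi.sub_apply, Pi.smul_apply, smul_eq_mul, en, Qc]
    ring).bd
  simp only [Pi.one_apply, Qc_dq] at h1 h2 s1 e1
  have K0 := abs_nonneg K
  refine ⟨1 + C1 + C2 + C3 + C4 + |K|, by linarith,
    fun g D β q l e w d o m h r hE hp hl he hw hd y0 y => ?_⟩
  rw [div_one] at hp
  have lo := t g D β q l e w d o m h r hE hp hl he hw hd y0
  have r1 := r1.trans r
  have r0 := one_pos.trans_le r1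
  have i0 := inv_pos.2 r0
  have he1 := he.2.trans ε1.2
  have ew := mul_le_of_le_one_left hw.1 he1
  have ew0 := mul_nonneg he.1 hw.1
  let j : ∀ π ∈ Icc (0 : ℝ) 1, ‖q.2‖ ≤ 2 * (q.1.2.1 * π) → J := fun π a b =>
    ⟨⟨g, D, β, q, l, e, w, d, π⟩, ⟨⟨o, m, h, r1, ⟨he.1, he1⟩, hw, hd, y, lo.1⟩, a, b⟩, lo.2⟩
  let j1 := j 1 ⟨zero_le_one, le_rfl⟩ (by linarith)
  have v := (e1 j1).self_of_nhds q _ (by rw [← Qc_dq, Qc_zero]) rfl
  refine ⟨v.1, ⟨s1 _ j1 fun x => hm_cd o m, (h1 j1).mono (by omega) ?_⟩,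
    ⟨⟨s1 _ j1 fun x a => (cc_cd o m a).sub contDiffAt_const, (h2 j1).mono (by omega) ?_⟩, ?_⟩,
    fun ϖ hϖ hq => ?_⟩
  · rw [mul_assoc, mul_add, mul_inv_cancel₀ r0.ne']
    exact mul_le_mul (by linarith) (add_le_add le_rfl (mul_le_mul_of_nonneg_left ew r0.le))
      (add_nonneg zero_le_one (mul_nonneg r0.le ew0)) (by linarith)
  · exact mul_le_mul (by linarith) (add_le_add le_rfl ew) (add_nonneg i0.le ew0) (by linarith)
  · have := (k1.lo l1 j1).2.2.2.2.2.2.2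
    simp only [Pi.zero_apply, Qc_zero] at this
    exact (v.2.2.1 : cc g q = _) ▸ this
  have a : q.1.2.1 * (ϖ / q.1.2.1) = ϖ := mul_div_cancel₀ _ r0.ne'
  let j2 := j (ϖ / q.1.2.1) ⟨div_nonneg hϖ.1 r0.le, (div_le_one r0).2 hϖ.2⟩ (by rwa [a])
  have u : ∀ ξ, Qc L5 P5 l (ϖ / q.1.2.1) q ξ =
      q + ((0, q.1.2.1 * ξ.1, ξ.2.1), ϖ • ξ.2.2) := fun ξ => by
    rw [Qc, a]
    ext <;> simp [d3, L5, P5]
  have a3 := h3 j2
  have a4 := h4 j2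
  have a5 := b.sa L5 P5 π2 q2 lw j2 fun x => hm_cd o m
  have a6 := y.ph.2.zero
  simp only [j2, j, u, Pi.zero_apply, Pi.add_apply, Pi.mul_apply, map_zero, d3_zero,
    Real.norm_eq_abs] at a3 a4 a5 a6
  obtain ⟨ν, hν⟩ : ∃ ν, ν = q.1.2.1⁻¹ + e * (d + q.1.2.1 * w) + (ϖ / q.1.2.1) ^ 2 := ⟨_, rfl⟩
  rw [show q.1.2.1⁻¹ + e * d + q.1.2.1 * (e * w) + ϖ / q.1.2.1 * (ϖ / q.1.2.1) = ν by
    rw [hν]; ring] at a3 a4
  have ed := mul_nonneg he.1 hd.1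
  have rw0 := mul_nonneg r0.le ew0
  have ν1 : q.1.2.1⁻¹ + e * (1 + q.1.2.1 * w) ≤ e + ν := by
    rw [hν]; nlinarith [sq_nonneg (ϖ / q.1.2.1)]
  have ν0 : 0 ≤ ν := by rw [hν]; nlinarith [sq_nonneg (ϖ / q.1.2.1)]
  rw [← hν]
  refine ⟨?_, (JD.of_fderiv a5 ⟨a5.fderiv, a4.mono le_rfl
    (mul_le_mul_of_nonneg_right (by linarith) ν0)⟩).ord (by omega)⟩
  have a7 := a6.trans ((mul_le_mul_of_nonneg_right (le_abs_self K) (add_nonneg i0.le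
    (mul_nonneg he.1 (add_nonneg zero_le_one (mul_nonneg r0.le hw.1))))).trans
    (mul_le_mul_of_nonneg_left ν1 K0))
  simp only [Prod.fst_zero, Prod.snd_zero, mul_zero, smul_zero, Prod.mk_zero_zero, add_zero] at a3
  have a8 := mul_nonneg c1 he.1
  have a9 := mul_nonneg c2 he.1
  have := mul_nonneg c3 he.1
  have := mul_nonneg c4 he.1
  have := mul_nonneg c1 ν0
  have := mul_nonneg c2 ν0
  have := mul_nonneg c4 ν0
  have := mul_nonneg K0 he.1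
  have := mul_nonneg K0 ν0
  have := he.1
  rw [abs_le] at a3 a7 ⊢
  constructor <;> linarith [a3.1, a3.2, a7.1, a7.2]

end Vale.Agent.P354LF
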