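import Vale.Agent.P354SC.Defs
import Vale.Agent.P354LF.Hj

/-!
The Hamiltonian in terms of the components of the metric.
-/

set_option linter.all false
set_option maxSynthPendingDepth 3

open scoped ContDiff
open Set Filter Topology

noncomputable section

namespace Vale.Agent.P354LF

open Vale.Agent.P354n (R4)
open Vale.Agent.P354R (Met)
open Vale.Agent.P354RC (B2 cv inv_of_inj)
open Vale.Agent.P354XD (tb rp_tb)
open Vale.Agent.P354XE (Tw)
open Vale.Agent.P354SA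
open Vale.Agent.P354SC (Nv φN)

/-- The components of the metric and of the gradient. -/
structure En where
  A : ℝ
  x : ℝ
  f : ℝ
  pb : ℝ
  z : Fin 2 → ℝ
  t : Fin 2 → ℝ
  p : Fin 2 → ℝ
  g : Fin 2 → Fin 2 → ℝ

namespace En
variable (c : En)

def D : ℝ := c.g 0 0 * c.g 1 1 - c.g 0 1 * c.g 0 1
def ad : Fin 2 → Fin 2 → ℝ := ![![c.g 1 1, -c.g 0 1], ![-c.g 0 1, c.g 0 0]]
def up (v : Fin 2 → ℝ) (a : Fin 2) : ℝ := ∑ b, c.ad a b * c.D⁻¹ * v b
def ip (u v : Fin 2 → ℝ) : ℝ := ∑ a, u a * c.up v a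
def a1 : ℝ := c.A - c.ip c.z c.z
def y : ℝ := -c.x + c.ip c.z c.t
def a2 : ℝ := c.f - 1 - c.ip c.t c.t
def De : ℝ := c.y * c.y - c.a1 * c.a2
def u : ℝ := c.ip c.p c.z
def ka : ℝ := c.pb - c.ip c.p c.t
def P : ℝ := c.ip c.p c.p
def R : ℝ := (1 + c.u) * (1 + c.u) + c.a1 * c.P
def b : ℝ := c.y * (1 + c.u) - c.a1 * c.ka
def s : ℝ := √(c.De * c.R)
def num : ℝ := c.De * c.P - c.a2 * ((1 + c.u) * (1 + c.u)) + 2 * (c.y * c.ka * (1 + c.u)) -
  c.a1 * c.ka * c.ka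
def H : ℝ := c.num * (c.b + c.s)⁻¹
def c1 : ℝ := (c.a2 * (1 + c.u) + c.y * (c.H - c.ka)) * c.s⁻¹
def wy (a : Fin 2) : ℝ := c.up c.t a + c.c1 * c.up c.z a - c.De * c.s⁻¹ * c.up c.p a

theorem ip_sy (u v : Fin 2 → ℝ) : c.ip u v = c.ip v u := by
  simp [ip, up, ad]
  ring

theorem up_neg (v : Fin 2 → ℝ) (a : Fin 2) : c.up (fun b => -v b) a = -c.up v a := by
  simp only [up, mul_neg, Finset.sum_neg_distrib]

theorem g_up (h : c.D ≠ 0) (hs : c.g 1 0 = c.g 0 1) (v : Fin 2 → ℝ) (a : Fin 2) :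
    ∑ b, c.up v b * c.g b a = v a := by
  fin_cases a <;> simp [up, ad, hs] <;> field_simp <;> unfold D <;> ring

end En

/-- The components at q, in the unit r. -/
def en (g : Tw) (β : Fin 2 → R4 → ℝ) (r : ℝ) (q : Q6) : En :=
  ⟨g q.1 e1 e1, g q.1 e1 (Nv β q.1), φN g β q.1, dot q.2 (Nv β q.1).2.2,
    fun a => r⁻¹ * g q.1 e1 (ey a), fun a => r⁻¹ * g q.1 (Nv β q.1) (ey a),
    fun a => r⁻¹ * ![q.2.1, q.2.2] a, fun a b => r⁻¹ * r⁻¹ * gm g a b q.1⟩

def cmb (r : ℝ) (k : Fin 2 → ℝ) : R4 := ∑ a, k a • r⁻¹ • ey a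

theorem inv_en {T : B2} (hs : ∀ a b, T a b = T b a) (hi : T.IsInvertible) {c : En} {N : R4} {r : ℝ}
    (hr : r ≠ 0) (n1 : N.1 = -1) (n2 : N.2.1 = 0) (hA : T e1 e1 = c.A) (hx : T e1 N = c.x)
    (hf : T N N + 1 = c.f) (hz : ∀ a, r⁻¹ * T e1 (ey a) = c.z a)
    (ht : ∀ a, r⁻¹ * T N (ey a) = c.t a) (hg : ∀ a b, r⁻¹ * r⁻¹ * T (ey a) (ey b) = c.g a b)
    (hD : c.D ≠ 0) (hΔ : c.De ≠ 0) (α : R4 →L[ℝ] ℝ) {L N2 : R4} (hL : L = e1 - cmb r (c.up c.z))
    (hN : N2 = N - cmb r (c.up c.t)) :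
    T.inverse α = cmb r (c.up fun b => r⁻¹ * α (ey b)) - c.De⁻¹ •
      ((c.a2 * α L + c.y * α N2) • L + (c.y * α L + c.a1 * α N2) • N2) := by
  have gs : c.g 1 0 = c.g 0 1 := by rw [← hg, ← hg, hs]
  have ap : ∀ (φ : R4 →L[ℝ] ℝ) k, φ (cmb r k) = ∑ a, k a * (r⁻¹ * φ (ey a)) := fun φ k => by
    simp only [cmb, map_sum, map_smul, smul_eq_mul]
  have k1 : ∀ v a, r⁻¹ * T (ey a) (cmb r (c.up v)) = v a := fun v a => by
    rw [ap, ← c.g_up hD gs v a, Finset.mul_sum]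
    exact Finset.sum_congr rfl fun b _ => by rw [← hg, hs]; ring
  have l0 : ∀ a, T (ey a) L = 0 := fun a => mul_left_cancel₀ (inv_ne_zero hr) (by
    rw [hL, map_sub, mul_sub, k1, hs, hz, sub_self, mul_zero])
  have m0 : ∀ a, T (ey a) N2 = 0 := fun a => mul_left_cancel₀ (inv_ne_zero hr) (by
    rw [hN, map_sub, mul_sub, k1, hs, ht, sub_self, mul_zero])
  have l1 : ∀ k, T L (cmb r k) = 0 := fun k => by simp only [ap, hs L, l0, mul_zero, Finset.sum_const_zero]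
  have m1 : ∀ k, T N2 (cmb r k) = 0 := fun k => by simp only [ap, hs N2, m0, mul_zero, Finset.sum_const_zero]
  have ll : T L L = c.a1 := by
    nth_rewrite 2 [hL]
    rw [map_sub, l1, sub_zero, hs, hL, map_sub, hA, ap]
    simp only [hz, En.a1, En.ip, mul_comm]
  have ln : T N2 L = -c.y := by
    rw [hL, map_sub, m1, sub_zero, hs, hN, map_sub, hx, ap]
    simp only [hz, En.y, En.ip, mul_comm]
    ring
  have nn : T N2 N2 = c.a2 := by
    nth_rewrite 2 [hN]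
    rw [map_sub, m1, sub_zero, hs, hN, map_sub, ap]
    simp only [ht, En.a2, En.ip, mul_comm, ← hf]
    ring
  refine (hi.inverse_apply_eq).2 (ContinuousLinearMap.ext fun v => ?_)
  generalize hV : cmb r (c.up fun b => r⁻¹ * α (ey b)) - c.De⁻¹ •
      ((c.a2 * α L + c.y * α N2) • L + (c.y * α L + c.a1 * α N2) • N2) = V
  have v1 : ∀ a, α (ey a) = T V (ey a) := fun a => mul_left_cancel₀ (inv_ne_zero hr) (by
    rw [hs, ← hV]
    simp only [map_sub, map_smul, map_add, l0, m0, smul_zero, add_zero, sub_zero, k1])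
  have v2 : α L = T V L := by
    rw [hs, ← hV]
    simp only [map_sub, map_smul, map_add, l1, ll, hs L N2, ln, smul_eq_mul]
    field_simp
    unfold En.De
    ring
  have v3 : α N2 = T V N2 := by
    rw [hs, ← hV]
    simp only [map_sub, map_smul, map_add, m1, nn, ln, smul_eq_mul]
    field_simp
    unfold En.De
    ring
  have v4 : ∀ k, α (cmb r k) = T V (cmb r k) := fun k => by simp only [ap, v1]
  rw [hL, map_sub, map_sub, v4, sub_left_inj] at v2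
  rw [hN, map_sub, map_sub, v4, sub_left_inj] at v3
  have e : v = (-v.1) • N + v.2.1 • e1 + (v.2.2.1 + v.1 * N.2.2.1) • ey 0 +
      (v.2.2.2 + v.1 * N.2.2.2) • ey 1 := by
    ext <;> simp [e1, ey, n1, n2]
  rw [e]
  simp only [map_add, map_smul, v1, v2, v3]

theorem cmb_eq (r : ℝ) (k : Fin 2 → ℝ) : cmb r k = (0, 0, k 0 * r⁻¹, k 1 * r⁻¹) := by
  ext <;> simp [cmb, ey]

variable {g : Tw} {D : Set R4} {q : Q6} {β : Fin 2 → R4 → ℝ} {r : ℝ} {c : En}

theorem ham_pt (o : IsOpen D) (m : Met g D) (h : q.1 ∈ D) (hr : r ≠ 0) (hc : c = en g β r q)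
    (hD : c.D ≠ 0) (hΔ : 0 < c.De) (hR : 0 < c.R) (hb : 0 < c.b) :
    q ∈ Ug g D ∧ Hm g q = c.H ∧ cc g q = c.De * c.s⁻¹ ∧ (Wv g q).2.1 = -c.c1 ∧
      ∀ a, r * yc a (Wv g q + Nv β q.1) = c.wy a := by
  have t := rp_tb o m
  obtain ⟨L, hL⟩ : ∃ L, L = e1 - cmb r (c.up c.z) := ⟨_, rfl⟩
  obtain ⟨N, hN⟩ : ∃ N, N = Nv β q.1 - cmb r (c.up c.t) := ⟨_, rfl⟩
  have k := fun α => inv_en (t.symm _ h) (inv_of_inj (t.nd _ h)) (c := c) (N := Nv β q.1) hr rfl rfl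
    (by rw [hc, ← t.eq _ h]; rfl) (by rw [hc, ← t.eq _ h]; rfl) (by rw [hc, ← t.eq _ h]; rfl)
    (fun a => by rw [hc, ← t.eq _ h]; rfl) (fun a => by rw [hc, ← t.eq _ h]; rfl)
    (fun a b => by rw [hc, ← t.eq _ h]; rfl) hD hΔ.ne' α hL hN
  have p0 : q.2.1 = r * c.p 0 := by simp [hc, en, hr]
  have p1 : q.2.2 = r * c.p 1 := by simp [hc, en, hr]
  have x0 : ∀ k, xp q.2 (cmb r k) = -∑ a, c.p a * k a := fun k => by
    simp only [xp_ap, cmb_eq, dot, p0, p1, Fin.sum_univ_two]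
    field_simp
    ring
  have s0 : ∀ k, cv 0 (cmb r k) = 0 := fun k => by rw [cmb_eq]; rfl
  have s1 : cv 0 L = 0 := by rw [hL, map_sub, s0, sub_zero]; rfl
  have s2 : cv 0 N = -1 := by rw [hN, map_sub, s0, sub_zero]; rfl
  have s3 : (fun b => r⁻¹ * cv 0 (ey b)) = fun b => -(0 : Fin 2 → ℝ) b := by
    funext b; fin_cases b <;> simp [cv, ey]
  have x1 : xp q.2 L = 1 + c.u := by
    rw [hL, map_sub, x0, xp_ap]
    simp [dot, e1, En.u, En.ip]
    ring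
  have x2 : xp q.2 N = -c.ka := by
    rw [hN, map_sub, x0, xp_ap, show dot q.2 (Nv β q.1).2.2 = c.pb by rw [hc]; rfl]
    simp [Nv, En.ka, En.ip]
    ring
  have x3 : (fun b => r⁻¹ * xp q.2 (ey b)) = fun b => -c.p b := by
    funext b; fin_cases b <;> simp [xp_ap, dot, ey, p0, p1, hr]
  have u0 : ∀ a, c.up 0 a = 0 := fun a => by simp [En.up]
  have i1 : ig g q.1 (cv 0) (cv 0) = -c.a1 / c.De := by
    simp only [ig, k, map_sub, map_smul, map_add, s0, s1, s2, smul_eq_mul]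
    ring
  have i2 : qb g q = c.b / c.De := by
    simp only [qb, ig, k, map_sub, map_smul, map_add, x0, s1, s2, s3, x1, x2, smul_eq_mul,
      c.up_neg, u0, En.b]
    simp
    ring
  have i3 : ig g q.1 (xp q.2) (xp q.2) = c.num / c.De := by
    simp only [ig, k, map_sub, map_smul, map_add, x0, x1, x2, x3, smul_eq_mul, c.up_neg, mul_neg,
      Finset.sum_neg_distrib, neg_neg]
    rw [← En.ip, ← En.P, En.num]
    field_simp
    ring
  have i4 : qd g q = c.R / c.De := by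
    rw [qd, i1, i2, i3, En.num, En.b, En.R]
    field_simp
    unfold En.De
    ring
  have sp : 0 < c.s := Real.sqrt_pos.2 (mul_pos hΔ hR)
  have i5 : √(qd g q) = c.s / c.De := by
    rw [i4, Real.sqrt_eq_iff_mul_self_eq_of_pos (div_pos sp hΔ), div_mul_div_comm, En.s,
      Real.mul_self_sqrt (mul_pos hΔ hR).le]
    field_simp
  have U : q ∈ Ug g D := ⟨h, i2 ▸ div_pos hb hΔ, i4 ▸ div_pos hR hΔ⟩
  have e1' : Hm g q = c.H := by
    rw [Hm, i2, i3, i5, En.H]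
    field_simp
  have e2 : cc g q = c.De * c.s⁻¹ := by rw [cc, i5, inv_div, div_eq_mul_inv]
  have w1 := (wv_ap o m U).1
  have y1 : xi g q L = 1 + c.u := by rw [xi_ap, x1, show L.1 = 0 from s1, mul_zero, sub_zero]
  have y2 : xi g q N = c.H - c.ka := by rw [xi_ap, x2, show N.1 = -1 from s2, e1']; ring
  have y3 : (fun b => r⁻¹ * xi g q (ey b)) = fun b => -c.p b := by
    rw [← x3]; funext b; fin_cases b <;> simp [xi_ap, ey]
  have w := k (xi g q)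
  rw [y1, y2, y3] at w
  refine ⟨U, e1', e2, ?_⟩
  rw [Wv, w, e2, hL, hN] at w1 ⊢
  simp only [cmb_eq, Nv, e1, c.up_neg] at w1 ⊢
  simp at w1
  refine ⟨?_, fun a => ?_⟩
  · simp [En.c1]
    field_simp
  · have w2 : c.y * (1 + c.u) + c.a1 * (c.H - c.ka) = c.s := by
      field_simp at w1
      linarith
    fin_cases a <;> simp [yc, En.wy, En.c1, w2] <;> field_simp <;> ring

end Vale.Agent.P354LF
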