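import Vale.Agent.P354LF.Ham1

/-!
The classes of the Hamiltonian for families of components.
-/

set_option linter.all false
set_option maxSynthPendingDepth 3

open scoped ContDiff
open Set Filter Topology

noncomputable section

namespace Vale.Agent.P354LF

open Vale.Agent.P354YI (Oj)
open Vale.Agent.P354SC (o_mul o_mull o_mulr o_sm o_inv o_pos)

variable {J E : Type} [NormedAddCommGroup E] [NormedSpace ℝ E] {n : ℕ} {x : J → E}
  {c : J → E → En} {r ρ κ δ π μ ν : J → ℝ} {c0 : ℝ}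

/-- The bounds for the components; ρ is the inverse of r. -/
structure Hf (n : ℕ) (x : J → E) (c : J → E → En) (r ρ κ δ π : J → ℝ) (c0 : ℝ) : Prop where
  nm : ∀ j, 0 < ρ j ∧ ρ j ≤ 1 ∧ ρ j * r j = 1 ∧ 0 ≤ κ j ∧ κ j ≤ 1 ∧ 0 ≤ δ j ∧ δ j ≤ 3 ∧ 0 ≤ π j ∧
    π j ≤ 1 ∧ 1 ≤ r j
  A : Oj n x (fun j ξ => (c j ξ).A) (ρ * ρ)
  x1 : Oj n x (fun j ξ => (c j ξ).x + 1) (ρ + κ)
  f : Oj n x (fun j ξ => (c j ξ).f) (1 + r * κ)
  pb : Oj n x (fun j ξ => (c j ξ).pb) (r * κ)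
  z : ∀ a, Oj n x (fun j ξ => (c j ξ).z a) ρ
  t : ∀ a, Oj n x (fun j ξ => (c j ξ).t a) (ρ + δ)
  p : ∀ a, Oj n x (fun j ξ => (c j ξ).p a) π
  g : ∀ a b, Oj n x (fun j ξ => (c j ξ).g a b) 1
  c0 : 0 < c0 ∧ ∀ j, c0 ≤ (c j (x j)).D

/-- The lower bounds. -/
def En.Lw (c : En) : Prop :=
  |c.x + 1| ≤ 1 / 10 ∧ |c.y - 1| ≤ 1 / 10 ∧ |c.De - 1| ≤ 1 / 10 ∧ |c.R - 1| ≤ 1 / 10 ∧
    |c.b - 1| ≤ 1 / 10

namespace Hf
variable (h : Hf n x c r ρ κ δ π c0) {f : J → E → ℝ} {u v : J → E → Fin 2 → ℝ}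
include h

theorem r0 (j : J) : 0 ≤ ρ j := (h.nm j).1.le
theorem m0 (j : J) : 0 ≤ (ρ + κ) j := h.x1.nn j
theorem b0 (j : J) : 0 ≤ (1 + r * κ) j := h.f.nn j
theorem up1 (o : Oj n x f ρ) : Oj n x f (ρ + κ) :=
  o.mono le_rfl fun j => le_add_of_nonneg_right (h.nm j).2.2.2.1
theorem m1 (o : Oj n x f (ρ + κ)) : Oj n x f 1 :=
  o.wt (c := 2) (fun _ => zero_le_one) fun j => by
    obtain ⟨a1, a2, a3, a4, a5, -⟩ := h.nm j
    simp only [Pi.add_apply, Pi.one_apply]; linarith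
theorem r1 (o : Oj n x f ρ) : Oj n x f 1 := h.m1 (h.up1 o)
theorem t1 (o : Oj n x f (ρ + δ)) : Oj n x f 1 :=
  o.wt (c := 4) (fun _ => zero_le_one) fun j => by
    obtain ⟨a1, a2, a3, a4, a5, a6, a7, -⟩ := h.nm j
    simp only [Pi.add_apply, Pi.one_apply]; linarith
theorem p1 (o : Oj n x f π) : Oj n x f 1 := o.mono le_rfl fun j => (h.nm j).2.2.2.2.2.2.2.2.1
theorem rr (o : Oj n x f (ρ * ρ)) : Oj n x f ρ :=
  o.mono le_rfl fun j => mul_le_of_le_one_left (h.r0 j) (h.nm j).2.1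
theorem b1 (o : Oj n x f 1) : Oj n x f (1 + r * κ) :=
  o.mono le_rfl fun j => le_add_of_nonneg_right (h.pb.nn j)
theorem b2 (o : Oj n x f (r * κ)) : Oj n x f (1 + r * κ) :=
  o.mono le_rfl fun j => le_add_of_nonneg_left zero_le_one
theorem br (o : Oj n x f ((1 + r * κ) * ρ)) : Oj n x f (ρ + κ) :=
  o.mono le_rfl fun j => le_of_eq (by
    simp only [Pi.add_apply, Pi.one_apply, Pi.mul_apply]
    linear_combination κ j * (h.nm j).2.2.1)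

theorem o_up (o : ∀ a, Oj n x (fun j ξ => v j ξ a) μ) (a : Fin 2) :
    Oj n x (fun j ξ => (c j ξ).up (v j ξ) a) μ := by
  have d := o_inv ((o_mull (h.g 0 0) (h.g 1 1)).sub (o_mull (h.g 0 1) (h.g 0 1))) h.c0.1 h.c0.2
  refine Oj.sum Finset.univ (o 0).nn fun b _ => o_mulr (o_mull ?_ d) (o b)
  fin_cases a <;> fin_cases b
  exacts [h.g 1 1, (h.g 0 1).neg, (h.g 0 1).neg, h.g 0 0]

theorem o_ip (o : ∀ a, Oj n x (fun j ξ => u j ξ a) μ) (o' : ∀ a, Oj n x (fun j ξ => v j ξ a) ν) :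
    Oj n x (fun j ξ => (c j ξ).ip (u j ξ) (v j ξ)) (μ * ν) :=
  Oj.sum Finset.univ (fun j => mul_nonneg ((o 0).nn j) ((o' 0).nn j)) fun a _ =>
    o_mul (o a) (h.o_up o' a)

theorem o_a1 : Oj n x (fun j ξ => (c j ξ).a1) (ρ * ρ) := h.A.sub (h.o_ip h.z h.z)
theorem o_zt : Oj n x (fun j ξ => (c j ξ).ip (c j ξ).z (c j ξ).t) ρ := by
  simpa using h.o_ip h.z fun a => h.t1 (h.t a)
theorem o_tt : Oj n x (fun j ξ => (c j ξ).ip (c j ξ).t (c j ξ).t) (ρ + δ) := by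
  simpa using h.o_ip h.t fun a => h.t1 (h.t a)
theorem o_pt : Oj n x (fun j ξ => (c j ξ).ip (c j ξ).p (c j ξ).t) (ρ + δ) := by
  simpa using h.o_ip (fun a => h.p1 (h.p a)) h.t
theorem o_u : Oj n x (fun j ξ => (c j ξ).u) ρ := by
  simpa [En.u] using h.o_ip (fun a => h.p1 (h.p a)) h.z
theorem o_P : Oj n x (fun j ξ => (c j ξ).P) (π * π) := h.o_ip h.p h.p
theorem o_P1 : Oj n x (fun j ξ => (c j ξ).P) 1 := by
  simpa [En.P] using h.o_ip (fun a => h.p1 (h.p a)) fun a => h.p1 (h.p a)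
theorem o_u1 : Oj n x (fun j ξ => 1 + (c j ξ).u) 1 := (Oj.cst 1).add (h.r1 h.o_u)
theorem o_u2 : Oj n x (fun j ξ => (c j ξ).u * (1 + (1 + (c j ξ).u))) ρ :=
  o_mull h.o_u ((Oj.cst 1).add h.o_u1)
theorem o_x : Oj n x (fun j ξ => (c j ξ).x) 1 :=
  ((h.m1 h.x1).sub (Oj.cst 1)).congr' fun _ _ => by ring
theorem o_y1 : Oj n x (fun j ξ => (c j ξ).y - 1) (ρ + κ) :=
  ((h.up1 h.o_zt).sub h.x1).congr' fun _ _ => by unfold En.y; ring
theorem o_y : Oj n x (fun j ξ => (c j ξ).y) 1 :=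
  ((h.m1 h.o_y1).add (Oj.cst 1)).congr' fun _ _ => by ring
theorem o_f1 : Oj n x (fun j ξ => 1 - (c j ξ).f) (1 + r * κ) := (h.b1 (Oj.cst 1)).sub h.f
theorem o_a2 : Oj n x (fun j ξ => (c j ξ).a2) (1 + r * κ) :=
  (h.f.sub (h.b1 (Oj.cst 1))).sub (h.b1 (h.t1 h.o_tt))
theorem o_ka : Oj n x (fun j ξ => (c j ξ).ka) (1 + r * κ) := (h.b2 h.pb).sub (h.b1 (h.t1 h.o_pt))

theorem rb (o : Oj n x f (ρ * ρ * (1 + r * κ))) : Oj n x f ρ :=
  o.wt (c := 2) h.r0 fun j => by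
    obtain ⟨a1, a2, a3, a4, a5, -⟩ := h.nm j
    simp only [Pi.add_apply, Pi.one_apply, Pi.mul_apply]
    rw [show ρ j * ρ j * (1 + r j * κ j) = ρ j * (ρ j + κ j) by linear_combination ρ j * κ j * a3]
    nlinarith

theorem o_aa : Oj n x (fun j ξ => (c j ξ).a1 * (c j ξ).a2) ρ := h.rb (o_mul h.o_a1 h.o_a2)
theorem o_ak : Oj n x (fun j ξ => (c j ξ).a1 * (c j ξ).ka) ρ := h.rb (o_mul h.o_a1 h.o_ka)
theorem o_akk : Oj n x (fun j ξ => (c j ξ).a1 * (c j ξ).ka * (c j ξ).ka) (ρ + κ) :=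
  h.br (mul_comm ρ _ ▸ o_mul h.o_ak h.o_ka)
theorem o_D1 : Oj n x (fun j ξ => (c j ξ).De - 1) (ρ + κ) :=
  ((o_mull h.o_y1 (h.o_y.add (Oj.cst 1))).sub (h.up1 h.o_aa)).congr' fun _ _ => by
    unfold En.De; ring
theorem o_De : Oj n x (fun j ξ => (c j ξ).De) 1 :=
  ((h.m1 h.o_D1).add (Oj.cst 1)).congr' fun _ _ => by ring
theorem o_R1 : Oj n x (fun j ξ => (c j ξ).R - 1) ρ :=
  (h.o_u2.add (o_mull (h.rr h.o_a1) h.o_P1)).congr' fun _ _ => by unfold En.R; ring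
theorem o_R : Oj n x (fun j ξ => (c j ξ).R) 1 :=
  ((h.r1 h.o_R1).add (Oj.cst 1)).congr' fun _ _ => by ring
theorem o_b1 : Oj n x (fun j ξ => (c j ξ).b - 1) (ρ + κ) :=
  (h.o_y1.add (h.up1 ((o_mulr h.o_y h.o_u).sub h.o_ak))).congr' fun _ _ => by unfold En.b; ring
theorem o_b : Oj n x (fun j ξ => (c j ξ).b) 1 :=
  ((h.m1 h.o_b1).add (Oj.cst 1)).congr' fun _ _ => by ring

theorem lw : ∃ η > 0, ∀ j, ρ j + κ j ≤ η → (c j (x j)).Lw := by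
  obtain ⟨C, C0, k⟩ := (h.x1.pair (h.o_y1.pair (h.o_D1.pair ((h.up1 h.o_R1).pair h.o_b1)))).val
  refine ⟨1 / 10 / (C + 1), by positivity, fun j hj => ?_⟩
  have a : C * (ρ + κ) j ≤ 1 / 10 := by
    rw [le_div_iff₀ (by positivity)] at hj
    have := h.m0 j
    simp only [Pi.add_apply] at *
    nlinarith
  simpa only [En.Lw, norm_prod_le_iff, Real.norm_eq_abs] using (k j).trans a

variable (l : ∀ j, (c j (x j)).Lw)
include l

theorem lo (j : J) : (c j (x j)).x ≤ -(9 / 10) ∧ 9 / 10 ≤ (c j (x j)).y ∧ 9 / 10 ≤ (c j (x j)).De ∧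
    9 / 10 ≤ (c j (x j)).R ∧ 9 / 10 ≤ (c j (x j)).b ∧ 9 / 10 * (9 / 10) ≤ (c j (x j)).De *
      (c j (x j)).R ∧ 9 / 10 ≤ (c j (x j)).s ∧ (c j (x j)).De * (c j (x j)).s⁻¹ ∈ Icc (1 / 2) 2 := by
  obtain ⟨a1, a2, a3, a4, a5⟩ := l j
  rw [abs_le] at a1 a2 a3 a4 a5
  have a : 9 / 10 * (9 / 10) ≤ (c j (x j)).De * (c j (x j)).R :=
    mul_le_mul (by linarith) (by linarith) (by norm_num) (by linarith)
  have b : 9 / 10 ≤ (c j (x j)).s := Real.le_sqrt_of_sq_le (by rw [sq]; exact a)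
  have d : (c j (x j)).s ≤ 11 / 10 := Real.sqrt_le_iff.2 ⟨by norm_num, by
    rw [sq]
    exact mul_le_mul (by linarith) (by linarith) (by linarith) (by norm_num)⟩
  refine ⟨by linarith, by linarith, by linarith, by linarith, by linarith, a, b, ?_⟩
  rw [← div_eq_mul_inv, mem_Icc, le_div_iff₀ (by linarith), div_le_iff₀ (by linarith)]
  constructor <;> linarith

theorem o_s : Oj n x (fun j ξ => (c j ξ).s) 1 :=
  o_pos (F := Real.sqrt) (o_mull h.o_De h.o_R) (by norm_num) (fun j => (h.lo l j).2.2.2.2.2.1)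
    fun _ hy => Real.contDiffAt_sqrt hy.ne'

theorem ev (j : J) : ∀ᶠ ξ in 𝓝 (x j), (c j ξ).x < 0 ∧ 0 < (c j ξ).y ∧ 0 < (c j ξ).De ∧
    0 < (c j ξ).R ∧ 0 < (c j ξ).b ∧ 0 < (c j ξ).s ∧ (c j ξ).D ≠ 0 ∧
    (c j ξ).s * (c j ξ).s = (c j ξ).De * (c j ξ).R := by
  obtain ⟨a1, a2, a3, a4, a5, -⟩ := h.lo l j
  filter_upwards [(h.o_x.sm j).continuousAt.eventually_lt_const (u := 0) (by linarith),
    (h.o_y.sm j).continuousAt.eventually_const_lt (u := 0) (by linarith),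
    (h.o_De.sm j).continuousAt.eventually_const_lt (u := 0) (by linarith),
    (h.o_R.sm j).continuousAt.eventually_const_lt (u := 0) (by linarith),
    (h.o_b.sm j).continuousAt.eventually_const_lt (u := 0) (by linarith),
    (((o_mull (h.g 0 0) (h.g 1 1)).sub (o_mull (h.g 0 1) (h.g 0 1))).sm j).continuousAt.eventually_ne
      (h.c0.1.trans_le (h.c0.2 j)).ne'] with ξ b1 b2 b3 b4 b5 b6
  exact ⟨b1, b2, b3, b4, b5, Real.sqrt_pos.2 (mul_pos b3 b4), b6,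
    Real.mul_self_sqrt (mul_pos b3 b4).le⟩

theorem o_si : Oj n x (fun j ξ => (c j ξ).s⁻¹) 1 :=
  o_inv (h.o_s l) (by norm_num) fun j => (h.lo l j).2.2.2.2.2.2.1

theorem o_di : Oj n x (fun j ξ => ((c j ξ).b + (c j ξ).s)⁻¹) 1 :=
  o_inv (h.o_b.add (h.o_s l)) one_pos fun j => by
    obtain ⟨a1, a2, a3, a4, a5, a6, a7, -⟩ := h.lo l j
    linarith

theorem o_xi : Oj n x (fun j ξ => (c j ξ).x⁻¹) 1 :=
  (o_inv h.o_x.neg (c := 9 / 10) (by norm_num) fun j => by linarith [(h.lo l j).1]).neg.congr'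
    fun _ _ => by rw [inv_neg, neg_neg]

theorem o_sy : Oj n x (fun j ξ => (c j ξ).s - (c j ξ).y) ρ :=
  (o_mull ((o_mulr h.o_De h.o_R1).sub h.o_aa) (o_inv ((h.o_s l).add h.o_y) one_pos fun j => by
    obtain ⟨a1, a2, a3, a4, a5, a6, a7, -⟩ := h.lo l j
    linarith)).congr fun j => (h.ev l j).mono fun ξ ⟨_, b2, _, _, _, b6, _, b8⟩ => by
      have := (add_pos b6 b2).ne'
      simp only
      field_simp
      rw [En.De] at b8 ⊢
      linear_combination b8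

theorem o_cc : Oj n x (fun j ξ => (c j ξ).De * (c j ξ).s⁻¹ - 1) (ρ + κ) :=
  (o_mull (h.o_D1.sub ((h.up1 (h.o_sy l)).add h.o_y1)) (h.o_si l)).congr fun j =>
    (h.ev l j).mono fun ξ b => by
      have := b.2.2.2.2.2.1.ne'
      simp only
      field_simp
      ring

theorem o_d1 : Oj n x (fun j ξ => (c j ξ).b + (c j ξ).s + 2 * (c j ξ).x) ρ :=
  ((((o_mulr h.o_y h.o_u).sub h.o_ak).add (h.o_sy l)).add (o_sm 2 h.o_zt)).congr' fun _ _ => by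
    unfold En.b En.y; ring

theorem o_h : Oj n x (fun j ξ => (c j ξ).H + (1 - (c j ξ).f) / (2 * (c j ξ).x) - (c j ξ).pb)
    (ρ + κ + δ + π * π) := by
  have k := h.nm
  have w1 : ∀ {f : J → E → ℝ}, Oj n x f (ρ + κ) → Oj n x f (ρ + κ + δ + π * π) := fun o =>
    o.mono le_rfl fun j => by
      obtain ⟨a1, a2, a3, a4, a5, a6, a7, a8, -⟩ := k j
      simp only [Pi.add_apply, Pi.mul_apply]; nlinarith
  have w2 : ∀ {f : J → E → ℝ}, Oj n x f (ρ + δ) → Oj n x f (ρ + κ + δ + π * π) := fun o =>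
    o.mono le_rfl fun j => by
      obtain ⟨a1, a2, a3, a4, a5, a6, a7, a8, -⟩ := k j
      simp only [Pi.add_apply, Pi.mul_apply]; nlinarith
  have w3 : ∀ {f : J → E → ℝ}, Oj n x f (π * π) → Oj n x f (ρ + κ + δ + π * π) := fun o =>
    o.mono le_rfl fun j => by
      obtain ⟨a1, a2, a3, a4, a5, a6, a7, a8, -⟩ := k j
      simp only [Pi.add_apply, Pi.mul_apply]; linarith
  refine (o_mull ((((((w3 (o_mulr h.o_De h.o_P)).add (w2 (o_mull h.o_tt (o_mull h.o_u1 h.o_u1)))).sub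
    (w1 h.o_akk)).sub (w2 (o_sm 2 (o_mulr (o_mull h.o_y h.o_u1) h.o_pt)))).add
    (w1 (h.br (o_mul h.o_f1 (o_mull ((o_mulr h.o_x h.o_u2).add (o_sm 2⁻¹ (h.o_d1 l)))
      (h.o_xi l)))))).add (w1 (h.br (o_mul (h.b2 h.pb) (((o_sm 2 (o_mulr h.o_y h.o_u)).add
        (o_sm 2 h.o_zt)).sub (h.o_d1 l)))))) (h.o_di l)).congr fun j =>
      (h.ev l j).mono fun ξ ⟨b1, _, _, _, b5, b6, _⟩ => ?_
  have := (add_pos b5 b6).ne'
  have := b1.ne
  have e : (c j ξ).ip (c j ξ).z (c j ξ).t = (c j ξ).y + (c j ξ).x := by unfold En.y; ring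
  simp only [En.H, En.num, e]
  rw [En.a2, En.ka]
  field_simp
  ring

theorem o_H0 : Oj n x (fun j ξ => (c j ξ).H - (1 - (c j ξ).f) / 2) (ρ + δ + r * κ + π * π) := by
  have k := h.nm
  have n0 : ∀ j, 0 ≤ (ρ + δ + r * κ + π * π) j := fun j => by
    obtain ⟨a1, a2, a3, a4, a5, a6, a7, a8, a9, a10⟩ := k j
    simp only [Pi.add_apply, Pi.mul_apply]; positivity
  refine ((((h.o_h l).mono le_rfl fun j => ?_).add (h.pb.mono le_rfl fun j => ?_)).sub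
    (o_sm 2⁻¹ (o_mull ((o_mul h.o_f1 h.x1).wt (c := 3) n0 fun j => ?_) (h.o_xi l)))).congr fun j =>
      (h.ev l j).mono fun ξ b => ?_
  · obtain ⟨a1, a2, a3, a4, a5, a6, a7, a8, a9, a10⟩ := k j
    simp only [Pi.add_apply, Pi.mul_apply]; nlinarith
  · obtain ⟨a1, a2, a3, a4, a5, a6, a7, a8, a9, a10⟩ := k j
    simp only [Pi.add_apply, Pi.mul_apply]; nlinarith
  · obtain ⟨a1, a2, a3, a4, a5, a6, a7, a8, a9, a10⟩ := k j
    simp only [Pi.add_apply, Pi.mul_apply, Pi.one_apply]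
    have e1 : κ j ≤ r j * κ j := le_mul_of_one_le_left a4 a10
    have e2 : r j * κ j * κ j ≤ r j * κ j := mul_le_of_le_one_right (a4.trans e1) a5
    rw [show (1 + r j * κ j) * (ρ j + κ j) = ρ j + 2 * κ j + r j * κ j * κ j by
      linear_combination κ j * a3]
    nlinarith
  · have := b.1.ne
    simp only
    field_simp
    ring

theorem o_H : Oj n x (fun j ξ => (c j ξ).H) (1 + r * κ) :=
  (((h.o_H0 l).wt (c := 5) h.b0 fun j => by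
    obtain ⟨a1, a2, a3, a4, a5, a6, a7, a8, a9, a10⟩ := h.nm j
    have := h.pb.nn j
    simp only [Pi.add_apply, Pi.mul_apply, Pi.one_apply] at *
    nlinarith).add (o_sm 2⁻¹ h.o_f1)).congr' fun _ _ => by ring

theorem o_h1 : Oj n x (fun j ξ => (c j ξ).H + (1 - (c j ξ).f) / (2 * (c j ξ).x) - (c j ξ).pb) 1 :=
  (h.o_h l).wt (c := 6) (fun _ => zero_le_one) fun j => by
    obtain ⟨a1, a2, a3, a4, a5, a6, a7, a8, a9, a10⟩ := h.nm j
    simp only [Pi.add_apply, Pi.mul_apply, Pi.one_apply]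
    nlinarith

theorem o_wy (a : Fin 2) : Oj n x (fun j ξ => (c j ξ).wy a) 1 :=
  ((h.t1 (h.o_up h.t a)).add (h.m1 (h.br (o_mul (o_mull ((o_mull h.o_a2 h.o_u1).add
    (o_mulr h.o_y ((h.o_H l).sub h.o_ka))) (h.o_si l)) (h.o_up h.z a))))).sub
    (o_mull (o_mull h.o_De (h.o_si l)) (h.p1 (h.o_up h.p a)))

end Hf

end Vale.Agent.P354LF
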