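import Vale.Agent.P354YM.Props
import Vale.Agent.P354XJ.Col
import Vale.Agent.P354XE.Low
import Vale.Agent.P354RC.Pull

/-!
PC and LIFT: lenses are past sets, almost isometries on lenses are injective and past directed
curves can be lifted.
-/

set_option linter.all false
set_option maxSynthPendingDepth 3

open scoped ContDiff
open Set Filter Topology

noncomputable section

namespace Vale.Agent.P354LF

open Vale.Agent.P354n (R4)
open Vale.Agent.P354I (X Dat)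
open Vale.Agent.P354RC (B2 surj_of_inj)
open Vale.Agent.P354XD (tb rp_tb)
open Vale.Agent.P354XE
open Vale.Agent.P354XJ (sign_of_deriv one_sp one_tgt)
open Vale.Agent.P354YM

variable {W D' K : Set R4} {g g' : Tw} {Xf X' b : R4 → R4} {τ : R4 → ℝ} {V V' η : ℝ} {d : Dat}
  {p : R4}

theorem cone (h : Lor g W Xf) (hp : p ∈ W) {u w : R4} (a : Ft g Xf p u) (c : Ft g Xf p w) :
    g p u w < 0 :=
  (one_sp h).up.same_cone (⟨p, hp⟩ : W)
    ((one_tgt (hD := h.isOpen) (g := g) (T := Xf) (c := ⟨p, hp⟩)).symm.subset hp) (h.tl p hp)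
    a.1 a.2 c.1.le c.2

theorem kv_mono (h : V' ≤ V) : KV W τ V' ⊆ KV W τ V := fun _ k => ⟨k.1, k.2.1, k.2.2.trans h⟩

theorem tau_cont (L : Lens W g Xf τ V d) : ContinuousOn τ (KV W τ V) :=
  fun p hp => (L.tm p hp).1.continuousAt.continuousWithinAt

theorem kv_cpt (L : Lens W g Xf τ V d) (h : V' ≤ V) : IsCompact (KV W τ V') := by
  have e : KV W τ V' = KV W τ V ∩ τ ⁻¹' Iic V' :=
    ext fun p => ⟨fun k => ⟨kv_mono h k, k.2.2⟩, fun k => ⟨k.1.1, k.1.2.1, k.2⟩⟩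
  rw [e]
  exact L.cpt.of_isClosed_subset
    ((tau_cont L).preimage_isClosed_of_isClosed L.cpt.isClosed isClosed_Iic) inter_subset_left

theorem lt_left {f : ℝ → ℝ} {f' s : ℝ} (h : HasDerivAt f f' s) (h0 : 0 < f') :
    ∀ᶠ t in 𝓝[<] s, f t < f s := by
  have := (sign_of_deriv (I := univ) (h.sub_const (f s)).hasDerivWithinAt h0 (sub_self _)).2
  rw [univ_inter] at this
  exact this.mono fun _ => sub_neg.1

/-- Induction to the left on the unit interval. -/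
theorem ind_left {S : Set ℝ} (c : IsClosed (S ∩ Icc 0 1)) (h1 : (1 : ℝ) ∈ S)
    (h : ∀ s ∈ S ∩ Ioc 0 1, ∀ᶠ t in 𝓝[<] s, t ∈ S) : Icc 0 1 ⊆ S :=
  c.Icc_subset_of_forall_exists_lt h1 fun s hs _ hy =>
    ((h s hs).and (Ico_mem_nhdsLT hy)).exists

theorem cl_pre {γ : ℝ → R4} (hK : IsCompact K) (c : ∀ s ∈ Icc (0 : ℝ) 1, DifferentiableAt ℝ γ s) :
    IsClosed (γ ⁻¹' K ∩ Icc 0 1) := by
  rw [inter_comm]
  exact ContinuousOn.preimage_isClosed_of_isClosed
    (fun s hs => (c s hs).continuousAt.continuousWithinAt) isClosed_Icc hK.isClosed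

theorem pc : PC := by
  intro W g Xf τ V d L V' hV γ h1 h
  refine ind_left (S := γ ⁻¹' KV W τ V') (cl_pre (kv_cpt L hV) fun s hs => (h s hs).1) h1
    fun s hs => ?_
  obtain ⟨a, -, c⟩ := h s (Ioc_subset_Icc_self hs.2)
  have k := kv_mono hV hs.1
  have t := L.tm _ k
  filter_upwards [lt_left (t.der a) (t.pos L.lor.met k.1 (L.lor.tl _ k.1) (c k)),
    nhdsWithin_le_nhds (a.continuousAt.eventually (L.lor.isOpen.mem_nhds k.1)),
    Ioo_mem_nhdsLT hs.2.1] with u u1 u2 u3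
  exact ⟨u2, (h u ⟨u3.1.le, u3.2.le.trans hs.2.2⟩).2.1, u1.le.trans hs.1.2.2⟩

/-- The margin of the lens. -/
theorem margin (L : Lens W g Xf τ V d) : ∃ η > 0, ∀ p ∈ KV W τ V,
    η * (‖Xf p‖ * ‖Xf p‖) < -g p (Xf p) (Xf p) ∧
    ∀ v ≠ 0, fderiv ℝ τ p v = 0 → η * (‖v‖ * ‖v‖) < g p v v := by
  have r := rp_tb L.lor.isOpen L.lor.met
  have hc : ContinuousOn (tb g) (KV W τ V) := r.sm.continuousOn.mono fun _ k => k.1
  have hx : ContinuousOn Xf (KV W τ V) := L.lor.cont.mono fun _ k => k.1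
  have x0 : ∀ p ∈ KV W τ V, 0 < ‖Xf p‖ * ‖Xf p‖ := fun p k =>
    mul_self_pos.2 (norm_ne_zero_iff.2 fun e => by
      have := L.lor.tl p k.1
      rw [r.eq p k.1, e, map_zero] at this
      exact this.false)
  obtain ⟨a, a0, ha⟩ := L.cpt.exists_forall_le' (a := 0)
    (f := fun p => -tb g p (Xf p) (Xf p) / (‖Xf p‖ * ‖Xf p‖))
    (((hc.clm_apply hx).clm_apply hx).neg.div (hx.norm.mul hx.norm) fun p k => (x0 p k).ne')
    fun p k => div_pos (neg_pos.2 ((r.eq p k.1 ..).symm.trans_lt (L.lor.tl p k.1))) (x0 p k)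
  have hS := L.cpt.prod (isCompact_sphere (0 : R4) 1)
  have hd : ContinuousOn (fun z : R4 × R4 => fderiv ℝ τ z.1 z.2)
      (KV W τ V ×ˢ Metric.sphere 0 1) := fun z k =>
    ((((L.tm _ k.1).1.fderiv_right (m := 0) (by simp)).continuousAt.comp
      continuousAt_fst).clm_apply continuousAt_snd).continuousWithinAt
  obtain ⟨c, c0, hc'⟩ := (hS.of_isClosed_subset (hd.preimage_isClosed_of_isClosed hS.isClosed
    (isClosed_singleton (x := 0))) inter_subset_left).exists_forall_le' (a := 0)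
    (f := fun z : R4 × R4 => tb g z.1 z.2 z.2)
    (((hc.comp continuousOn_fst fun _ k => k.1.1).clm_apply continuousOn_snd).clm_apply
      continuousOn_snd)
    fun z k => ((L.tm _ k.1.1).2.2 _ (Metric.ne_of_mem_sphere k.1.2 one_ne_zero) k.2).trans_eq
      (r.eq _ k.1.1.1 ..)
  refine ⟨min a c / 2, by positivity, fun p k => ⟨?_, fun v v0 e => ?_⟩⟩
  · have := (le_div_iff₀ (x0 p k)).1 (ha p k)
    rw [r.eq p k.1]
    nlinarith [x0 p k, min_le_left a c, lt_min a0 c0]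
  · have n : 0 < ‖v‖ := norm_pos_iff.2 v0
    have := hc' (p, ‖v‖⁻¹ • v) ⟨⟨k, by simp [norm_smul, n.ne']⟩, by simp [e]⟩
    simp only [map_smul, ContinuousLinearMap.smul_apply, smul_eq_mul] at this
    rw [← mul_assoc, ← mul_inv, ← div_eq_inv_mul, le_div_iff₀ (mul_pos n n)] at this
    rw [r.eq p k.1]
    nlinarith [mul_pos n n, min_le_right a c, lt_min a0 c0]

/-- The hypotheses of LIFT. -/
structure Hy (W : Set R4) (g : Tw) (Xf : R4 → R4) (τ : R4 → ℝ) (V V' : ℝ) (d : Dat) (g' : Tw)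
    (D' : Set R4) (X' b : R4 → R4) (η : ℝ) : Prop where
  L : Lens W g Xf τ V d
  le : V' ≤ V
  mar : ∀ p ∈ KV W τ V, η * (‖Xf p‖ * ‖Xf p‖) < -g p (Xf p) (Xf p) ∧
    ∀ v ≠ 0, fderiv ℝ τ p v = 0 → η * (‖v‖ * ‖v‖) < g p v v
  lor : Lor g' D' X'
  emb : Emb (KV W τ V') g Xf g' X' 0 η b
  mem : ∀ p ∈ KV W τ V', b p ∈ D'

namespace Hy
variable (H : Hy W g Xf τ V V' d g' D' X' b η)
include H

theorem sa (hp : p ∈ KV W τ V') : ContDiffAt ℝ ∞ b p :=
  let ⟨_, o, s, c⟩ := H.emb.sm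
  c.contDiffAt (o.mem_nhds (s hp))

theorem strict (hp : p ∈ KV W τ V') : ∃ A : R4 ≃L[ℝ] R4, (A : R4 →L[ℝ] R4) = fderiv ℝ b p ∧
    HasStrictFDerivAt b (A : R4 →L[ℝ] R4) p :=
  ⟨(LinearEquiv.ofBijective (fderiv ℝ b p : R4 →ₗ[ℝ] R4)
    ⟨H.emb.inj p hp, surj_of_inj (H.emb.inj p hp)⟩).toContinuousLinearEquiv, rfl,
    (H.sa hp).hasStrictFDerivAt (by simp)⟩

theorem fix (hp : p ∈ KV W τ V') (e : p.1 = 0) : b p = p := by
  have k : pt 0 (xs p) = p := e ▸ pt_xs p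
  simpa only [k] using (H.emb.id (xs p) (k.symm ▸ hp)).self_of_nhds

/-- The time function increases along the vectors whose images are future timelike. -/
theorem dtau (hp : p ∈ KV W τ V') {w : R4} (hw : Ft g' X' (b p) (fderiv ℝ b p w)) :
    0 < fderiv ℝ τ p w := by
  have k := kv_mono H.le hp
  have r := rp_tb H.lor.isOpen H.lor.met
  have m := H.mem p hp
  have cl : ∀ v, |pb b g' p v v - g p v v| ≤ η * (‖v‖ * ‖v‖) := fun v => by
    simpa using H.emb.cl p hp 0 le_rfl v v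
  have t := H.L.lor.tl p k.1
  have x1 : pb b g' p (Xf p) (Xf p) < 0 := by linarith [(H.mar p k).1, (abs_le.1 (cl (Xf p))).2]
  have x2 := cone H.lor m hw (H.emb.fut p hp _ ⟨t, t⟩ x1)
  have x3 := hw.1
  have x4 : ∀ v ≠ 0, fderiv ℝ τ p v = 0 → 0 < pb b g' p v v := fun v v0 e => by
    linarith [(H.mar p k).2 v v0 e, (abs_le.1 (cl v)).1]
  have h1 := (H.L.tm p k).2.1
  simp only [pb, r.eq _ m] at x1 x2 x3 x4
  by_contra! n
  generalize fderiv ℝ τ p = φ at h1 x4 n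
  have q : tb g' (b p) (fderiv ℝ b p (φ (Xf p) • w - φ w • Xf p))
      (fderiv ℝ b p (φ (Xf p) • w - φ w • Xf p)) < 0 := by
    simp only [map_sub, map_smul, ContinuousLinearMap.sub_apply, ContinuousLinearMap.smul_apply,
      smul_eq_mul, r.symm _ m (fderiv ℝ b p (Xf p)) (fderiv ℝ b p w)]
    nlinarith [mul_pos (mul_pos h1 h1) (neg_pos.2 x3), mul_nonneg h1.le
      (mul_nonneg_of_nonpos_of_nonpos n x2.le), mul_nonneg (mul_self_nonneg (φ w)) (neg_pos.2 x1).le]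
  refine q.not_gt (x4 _ (fun j => ?_) (by simp [mul_comm]))
  rw [j] at q
  simp at q

/-- The local lift to the past. -/
theorem loc (hp : p ∈ KV W τ V') (h0 : 0 < p.1) {δ : ℝ → R4} {s : ℝ} {u : R4}
    (hδ : HasDerivAt δ u s) (e : δ s = b p) (hu : Ft g' X' (b p) u) :
    ∃ γ : ℝ → R4, Tendsto γ (𝓝[<] s) (𝓝 p) ∧
      ∀ᶠ t in 𝓝[<] s, γ t ∈ KV W τ V' ∧ τ (γ t) < τ p ∧ b (γ t) = δ t := by
  obtain ⟨A, eA, S⟩ := H.strict hp
  have k := kv_mono H.le hp
  have v := S.localInverse_apply_image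
  have d1 : HasDerivAt (fun t => S.localInverse b A p (δ t)) (A.symm u) s :=
    (e ▸ S.to_localInverse.hasFDerivAt).comp_hasDerivAt s hδ
  have c : Tendsto (fun t => S.localInverse b A p (δ t)) (𝓝[<] s) (𝓝 p) := by
    have := d1.continuousAt.tendsto
    rw [e, v] at this
    exact this.mono_left nhdsWithin_le_nhds
  have d2 : HasDerivAt (fun t => τ (S.localInverse b A p (δ t))) (fderiv ℝ τ p (A.symm u)) s :=
    HasFDerivAt.comp_hasDerivAt s (by
      rw [e, v]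
      exact ((H.L.tm p k).1.differentiableAt one_ne_zero).hasFDerivAt) d1
  have l := lt_left d2 (H.dtau hp (by rw [← eA]; simpa using hu))
  rw [e, v] at l
  refine ⟨_, c, ?_⟩
  filter_upwards [l, c.eventually (H.L.lor.isOpen.mem_nhds k.1),
    c.eventually (continuousAt_fst.eventually (lt_mem_nhds h0)),
    nhdsWithin_le_nhds (hδ.continuousAt.eventually (e ▸ S.eventually_right_inverse))]
    with t t1 t2 t3 t4
  exact ⟨⟨t2, t3.le, t1.le.trans hp.2.2⟩, t1, t4⟩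

theorem cont : ContinuousOn b (KV W τ V') := fun _ k => (H.sa k).continuousAt.continuousWithinAt

theorem inj : InjOn b (KV W τ V') := by
  have hK := kv_cpt H.L H.le
  have hP := hK.prod hK
  set P : Set (R4 × R4) := {z | z ∈ KV W τ V' ×ˢ KV W τ V' ∧ b z.1 = b z.2 ∧ z.1 ≠ z.2} with eP
  have c1 : IsClosed P := isClosed_of_closure_subset fun z hz => by
    have a : z ∈ KV W τ V' ×ˢ KV W τ V' ∩ (fun z => b z.1 - b z.2) ⁻¹' {0} :=
      closure_minimal (s := P) (fun y k => And.intro k.1 (sub_eq_zero.2 k.2.1))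
        (((H.cont.comp continuousOn_fst fun _ k => k.1).sub (H.cont.comp continuousOn_snd
          fun _ k => k.2)).preimage_isClosed_of_isClosed hP.isClosed isClosed_singleton) hz
    refine ⟨a.1, sub_eq_zero.1 a.2, fun e => ?_⟩
    obtain ⟨A, -, S⟩ := H.strict a.1.1
    have l := S.eventually_left_inverse
    have l' : ∀ᶠ x in 𝓝 z.2, S.localInverse b A z.1 (b x) = x := by
      rw [← e]
      exact l
    obtain ⟨y, ⟨y1, y2⟩, y3⟩ := mem_closure_iff_nhds.1 hz _ ((continuousAt_fst.eventually l).and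
      (continuousAt_snd.eventually l'))
    exact y3.2.2 (y1.symm.trans (y3.2.1 ▸ y2))
  intro x hx y hy e
  by_contra n
  have t := (tau_cont H.L).mono (kv_mono H.le)
  obtain ⟨z, hz, hm⟩ := (hP.of_isClosed_subset c1 fun _ k => k.1).exists_isMinOn
    (f := fun z => τ z.1 + τ z.2) ⟨(x, y), ⟨hx, hy⟩, e, n⟩
    ((t.comp continuousOn_fst fun _ k => k.1.1).add (t.comp continuousOn_snd fun _ k => k.1.2))
  obtain ⟨⟨z1, z2⟩, z3, z4⟩ := hz
  have z5 : ∀ x ∈ KV W τ V', ∀ y ∈ KV W τ V', b x = b y → x.1 = 0 → x = y := fun x hx y hy e h =>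
    (H.fix hx h).symm.trans (e.trans (H.fix hy (hy.2.1.eq_of_not_lt' fun k => by
      have := H.emb.pos y hy k
      rw [← e, H.fix hx h] at this
      exact this.ne' h)))
  have p1 : 0 < z.1.1 := z1.2.1.lt_of_ne' fun h => z4 (z5 _ z1 _ z2 z3 h)
  have p2 : 0 < z.2.1 := z2.2.1.lt_of_ne' fun h => z4 (z5 _ z2 _ z1 z3.symm h).symm
  have hδ : HasDerivAt (fun s : ℝ => b z.1 + s • X' (b z.1)) (X' (b z.1)) 0 := by
    simpa using ((hasDerivAt_id (0 : ℝ)).smul_const (X' (b z.1))).const_add (b z.1)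
  have f : Ft g' X' (b z.1) (X' (b z.1)) := ⟨H.lor.tl _ (H.mem _ z1), H.lor.tl _ (H.mem _ z1)⟩
  obtain ⟨γ, a1, a2⟩ := H.loc z1 p1 hδ (by simp) f
  obtain ⟨γ', b1, b2⟩ := H.loc z2 p2 hδ (by simp [z3]) (z3 ▸ f)
  obtain ⟨s, ⟨s1, s2⟩, s3⟩ := ((a2.and b2).and ((a1.prodMk_nhds b1).eventually
    (isClosed_diagonal.isOpen_compl.mem_nhds z4))).exists
  have := hm (a := (γ s, γ' s)) ⟨⟨s1.1, s2.1⟩, s1.2.2.trans s2.2.2.symm, s3⟩
  simp only [mem_setOf_eq] at this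
  linarith [s1.2.1, s2.2.1]

end Hy

theorem inv_cont (hK : IsCompact K) (c : ContinuousOn b K) (i : InjOn b K) :
    ContinuousOn (Function.invFunOn b K) (b '' K) :=
  continuousOn_iff_isClosed.2 fun t ht => ⟨b '' (K ∩ t),
    ((hK.inter_right ht).image_of_continuousOn (c.mono inter_subset_left)).isClosed, by
      ext y
      refine ⟨fun ⟨h, x, hx, e⟩ => ⟨⟨x, ⟨hx, ?_⟩, e⟩, x, hx, e⟩, fun ⟨⟨x, hx, e⟩, h⟩ => ⟨?_, h⟩⟩
      · rwa [← e, mem_preimage, i.leftInvOn_invFunOn hx] at h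
      · rw [← e, mem_preimage, i.leftInvOn_invFunOn hx.1]
        exact hx.2⟩

theorem lift : LIFT := by
  intro W g Xf τ V d c Ω Φ Ψ E L _
  obtain ⟨η, η0, hη⟩ := margin L
  refine ⟨η, η0, fun V' hV g' D' X' b l hT e m => ?_⟩
  have H : Hy W g Xf τ V V' d g' D' X' b η := ⟨L, hV, hη, l, e, fun p k => (m p k).1⟩
  have hK := kv_cpt L hV
  refine ⟨H.inj, fun p hp x γ ⟨_, h1, h⟩ => ?_⟩
  have s : Icc 0 1 ⊆ γ ⁻¹' (b '' KV W τ V') := by
    refine ind_left (cl_pre (hK.image_of_continuousOn H.cont) fun s hs => (h s hs).2.1)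
      ⟨p, hp, h1.symm⟩ fun s hs => ?_
    obtain ⟨⟨q, hq, eq⟩, hs⟩ := hs
    obtain ⟨a, a1, a2⟩ := h s (Ioc_subset_Icc_self hs)
    rcases hq.2.1.eq_or_lt with z | z
    · have e1 : γ s = pt 0 (xs (γ s)) := by
        rw [← eq, H.fix hq z.symm, z]
        rfl
      have t : Tm g' X' (fun p => p.1) (γ s) := e1 ▸ (hT _ a.2.1).2
      obtain ⟨u, u1, u2⟩ := ((lt_left (t.der a1) (t.pos l.met a.1 (l.tl _ a.1) a2)).and
        (Ioo_mem_nhdsLT hs.1)).exists
      have := (h u ⟨u2.1.le, u2.2.le.trans hs.2⟩).1.2.2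
      rw [e1] at u1
      exact absurd u1 this.not_gt
    · obtain ⟨γ', -, k⟩ := H.loc hq z a1.hasDerivAt eq.symm (eq ▸ a2)
      exact k.mono fun t k => ⟨_, k.1, k.2.2⟩
  exact ⟨fun s => Function.invFunOn b (KV W τ V') (γ s), (inv_cont hK H.cont H.inj).comp
    (fun s hs => (h s hs).2.1.continuousAt.continuousWithinAt) s,
    by simp only [h1, H.inj.leftInvOn_invFunOn hp],
    fun t ht => ⟨Function.invFunOn_mem (s ht), Function.invFunOn_eq (s ht)⟩⟩

end Vale.Agent.P354LF
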