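import Vale.Agent.P354LF.Lin
import Vale.Agent.P354TS.Trans

/-!
LOCA: closeness to Kerr in the Kruskal chart, and the location on compact sets.
-/

set_option linter.all false
set_option maxSynthPendingDepth 3

open scoped ContDiff
open Set Filter Topology

noncomputable section

namespace Vale.Agent.P354LF

open Vale.Agent.P354n (R4)
open Vale.Agent.P354I (X Dat rm rp)
open Vale.Agent.P354RC (B2)
open Vale.Agent.P354XD (tb rp_tb)
open Vale.Agent.P354XE hiding ci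
open Vale.Agent.P354XU (Jt)
open Vale.Agent.P354YI (Jb ex_jb at_fd ev_dif)
open Vale.Agent.P354YR (gK XK XI DK DI DE ci kU kV isCh gK_lor gK_met gin_lor open_DK open_DI
  open_DE D0_sub s_kr s_XK s_XI)
open Vale.Agent.P354YM hiding kv_mono
open Vale.Agent.P354TS (kr_ct)

variable {M a r1 r0 r2 θ s δ c κ e : ℝ} {σ : Bool} {p x : R4} {A : Set R4}

/-- The null coordinate of an end. -/
def nV (M a : ℝ) (σ : Bool) (x : R4) : ℝ := bif σ then kV M a x else kU M a x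

theorem nv_ch (h : |a| < M) (hp : p ∈ DI M a) :
    nV M a σ (ch M a σ p) = mf M a (rd p) * Real.exp (ka M a * p.1) := by
  cases σ
  exacts [(P354YR.mir_U h (P354YR.kap_mem h hp).1.1).trans (P354YR.kap_V h hp), P354YR.kap_V h hp]

theorem nv_max (M a : ℝ) (x : R4) : ∃ σ, nV M a σ x = x.1 + |kx M a x| := by
  rcases le_total 0 (kx M a x) with k | k
  exacts [⟨true, by rw [abs_of_nonneg k]; rfl⟩, ⟨false, by rw [abs_of_nonpos k]; rfl⟩]

theorem nv_ct (hx : xs x ≠ 0) : ContinuousAt (nV M a σ) x := by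
  cases σ
  exacts [(P354YR.s_kU (f := id) contDiffAt_id hx).continuousAt,
    (P354YR.s_kV (f := id) contDiffAt_id hx).continuousAt]

theorem ch_fst (σ : Bool) (p : R4) : (ch M a σ p).1 = (kap M a p).1 := by cases σ <;> rfl

theorem ch_cd (h : |a| < M) (hp : p ∈ DI M a) : ContDiffAt ℝ ∞ (ch M a σ) p :=
  (isCh h σ).pull.smooth.contDiffAt (open_DI.mem_nhds hp)

theorem ci_cd (h : |a| < M) (hx : x ∈ DE M a σ) : ContDiffAt ℝ ∞ (ci M a σ) x :=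
  (isCh h σ).back.smooth.contDiffAt ((open_DE σ).mem_nhds hx)

theorem cpt_le {f g : R4 → ℝ} (hA : IsCompact A) (hf : ContinuousOn f A) (hg : ContinuousOn g A) :
    IsCompact {x ∈ A | f x ≤ g x} :=
  hA.of_isClosed_subset (hA.isClosed.isClosed_le hf hg) (sep_subset _ _)

/-- At x, g is close to gK, and vectors which are future timelike with a margin stay so. -/
def Kc (M a : ℝ) (m : ℕ) (c κ : ℝ) (g : Tw) (Xf : R4 → R4) (x : R4) : Prop :=
  Bd m (g - gK M a) x κ ∧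
    ∀ w, Ft (gK M a) (XK M a) x w → gK M a x w w ≤ -c * ‖w‖ ^ 2 → Ft g Xf x w

theorem kc (h : |a| < M) (h1 : rm M a < r1) (hθ : 0 < θ) (hA : IsCompact A) (sA : A ⊆ DK M a)
    (m : ℕ) (hc : 0 < c) (hκ : 0 < κ) : ∃ ε0 > 0, ∀ R, ∀ ε ≤ ε0, ∀ K W g Xf q, Lor g W Xf →
      Cls ⟨M, a, r1, θ, R, s, δ, ε, m⟩ K g Xf q → ∀ x ∈ A, x ∈ K → x ∈ W → x ∈ D0 M a r1 →
        kr M a x ≤ 5 * M → Kc M a m c κ g Xf x := by
  have key : ∀ (A' : Set R4) (Z : R4 → R4), IsCompact A' → A' ⊆ DK M a → ContinuousOn Z A' →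
      (∀ x ∈ A', Ft (gK M a) (XK M a) x (Z x)) → ∃ κ' > 0, ∀ x ∈ A', ∀ W g Xf, Lor g W Xf →
        x ∈ W → Bd m (g - gK M a) x κ' → g x (Z x) (Xf x) < 0 → Kc M a m c κ g Xf x := by
    intro A' Z c' s' cZ f
    obtain ⟨k, k0, hk⟩ := mar (gK_lor h) c' s' cZ f hc
    refine ⟨min k κ, lt_min k0 hκ, fun x hx W g Xf l hW b o =>
      ⟨bd_mono b le_rfl (min_le_right _ _), fun w fw mw => ?_⟩⟩
    obtain ⟨a1, a2, a3⟩ := hk x hx (g x) (bd_zero (bd_mono b le_rfl (min_le_left _ _))) w fw mw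
    exact cone3 l hW a1 a2 a3 o
  obtain ⟨κ0, p0, h0⟩ := key A (XK M a) hA sA
    (fun x k => (s_XK (sA k)).continuousAt.continuousWithinAt)
    fun x k => ⟨(gK_lor h).tl x (sA k), (gK_lor h).tl x (sA k)⟩
  have e : ∀ σ, ∃ ε0 > 0, ∀ R, ∀ ε ≤ ε0, ∀ K W g Xf q, Lor g W Xf →
      Cls ⟨M, a, r1, θ, R, s, δ, ε, m⟩ K g Xf q → ∀ x ∈ A, x ∈ K → x ∈ W → x ∈ D0 M a r1 →
        kr M a x ≤ 5 * M → 2 * θ * mf M a (kr M a x) ≤ nV M a σ x → Kc M a m c κ g Xf x := by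
    intro σ
    have C := isCh h σ
    have cA := cpt_le (f := fun x => 2 * θ * mf M a (kr M a x)) (g := nV M a σ) hA
      (fun x k => (continuousAt_const.mul ((mf_cont h).continuousAt.comp
        (kr_ct (sA k).1))).continuousWithinAt) fun x k => (nv_ct (sA k).1).continuousWithinAt
    have sE : ∀ x ∈ {x ∈ A | 2 * θ * mf M a (kr M a x) ≤ nV M a σ x}, x ∈ DE M a σ := fun x k =>
      ⟨sA k.1, (mul_pos (by positivity) (mf_pos (sA k.1).2)).trans_le k.2⟩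
    obtain ⟨κ1, p1, h1'⟩ := key _
      (fun x => fderiv ℝ (ch M a σ) (ci M a σ x) (XI M a (ci M a σ x))) cA (fun x k => sA k.1)
      (fun x k => by
        have m1 := C.back.maps (sE x k)
        have c1 := (ci_cd h (sE x k)).continuousAt
        exact (((at_fd (ch_cd h m1)).continuousAt.comp c1).clm_apply
          ((s_XI (P354YR.DI_ne h m1)).continuousAt.comp c1)).continuousWithinAt)
      fun x k => by
        have m1 := C.back.maps (sE x k)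
        have e1 := C.pull.eq _ m1 (XI M a (ci M a σ x)) (XI M a (ci M a σ x))
        have e2 := C.ori _ m1
        rw [C.right x (sE x k)] at e1 e2
        exact ⟨e1.symm.trans_lt ((gin_lor h).tl _ m1),
          ((gK_met h).symm x (sA k.1) _ _).trans_lt e2⟩
    obtain ⟨B, -, hB⟩ := ex_jb m cA fun x k => at_fd (ci_cd h (sE x k))
    obtain ⟨C1, c0, hC⟩ := bd_pb m B
    refine ⟨κ1 / (2 * (C1 + 1)), by positivity, fun R ε hε K W g Xf q l cl x xA xK xW xD xr xV => ?_⟩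
    have mE := sE x ⟨xA, xV⟩
    have m1 := C.back.maps mE
    have e1 := C.right x mE
    have e2 := C.rad _ m1
    have e3 := nv_ch (σ := σ) h m1
    have e4 := ch_fst (M := M) (a := a) σ (ci M a σ x)
    have m0 := mf_pos (h1.trans xD.2.2)
    rw [e1] at e2 e3 e4
    rw [← e2] at e3
    obtain ⟨n1, n2⟩ := cl.near σ (ci M a σ x) ⟨e2 ▸ xD.2.2,
      le_of_mul_le_mul_left (by nlinarith [mul_pos hθ m0]) m0, e4 ▸ xD.2.1⟩ (e2 ▸ xr) (e1.symm ▸ xK)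
    rw [e1] at n2
    refine h1' x ⟨xA, xV⟩ W g Xf l xW (bd_congr (bd_mono (hC _ x _ _ (ci_cd h mE) (hB x ⟨xA, xV⟩)
      ((Bl.pb (ch_cd h m1) (e1.symm ▸ Bl.of l.isOpen l.met xW)).sub
        (.of open_DI (gin_lor h).met m1)) n1) le_rfl ?_) ?_) n2
    · have := (le_div_iff₀ (by positivity)).1 hε
      nlinarith [bd_nn n1]
    · have ev : ch M a σ ∘ ci M a σ =ᶠ[𝓝 x] id := mem_of_superset ((open_DE σ).mem_nhds mE) C.right
      filter_upwards [pb_pb (h := g) (ci_cd h mE) (ch_cd (σ := σ) h m1), pb_congr (h := g) ev,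
        (open_DE σ).mem_nhds mE] with y k1 k2 k3 v w
      refine congrArg₂ (· - ·) ?_ (C.back.eq y k3 v w)
      exact (show _ = pb id g y v w by simp [pb]).trans ((k2 v w).symm.trans (k1 v w))
  choose ε0 q0 e using e
  refine ⟨min (κ0 / 2) (min (ε0 true) (ε0 false)), lt_min (half_pos p0) (lt_min (q0 _) (q0 _)),
    fun R ε hε K W g Xf q l cl x xA xK xW xD xr => ?_⟩
  rcases le_total (x.1 + |kx M a x|) (2 * θ * mf M a (kr M a x)) with k | k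
  · obtain ⟨n1, n2⟩ := cl.mid x xK xD k
    exact h0 x xA W g Xf l xW (bd_mono n1 le_rfl (by linarith [hε.trans (min_le_left _ _)])) n2
  · obtain ⟨σ, hσ⟩ := nv_max M a x
    exact e σ R ε (hε.trans ((min_le_right _ _).trans (by cases σ <;> simp))) K W g Xf q l cl x xA
      xK xW xD xr (hσ ▸ k)

theorem pos_cpt {D K : Set R4} {g : Tw} (o : IsOpen D) (t : P354R.Met g D) (hK : IsCompact K)
    (s : K ⊆ D) (h : ∀ x ∈ K, ∀ v ≠ 0, v.1 = 0 → 0 < g x v v) :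
    ∃ c > 0, ∀ x ∈ K, ∀ v : R4, v.1 = 0 → c * ‖v‖ ^ 2 ≤ g x v v := by
  have r := rp_tb o t
  obtain ⟨c, c0, hc⟩ := (hK.prod ((isCompact_sphere (0 : R4) 1).inter_right
    (isClosed_eq continuous_fst (continuous_const (y := (0 : ℝ)))))).exists_forall_le' (a := 0)
    (f := fun z : R4 × R4 => tb g z.1 z.2 z.2) ((((r.sm.continuousOn.mono s).comp continuousOn_fst
      fun _ k => k.1).clm_apply continuousOn_snd).clm_apply continuousOn_snd)
    fun z k => (h _ k.1 _ (Metric.ne_of_mem_sphere k.2.1 one_ne_zero) k.2.2).trans_eq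
      (r.eq _ (s k.1) ..)
  refine ⟨c, c0, fun x k v e => ?_⟩
  rw [r.eq x (s k)]
  rcases eq_or_ne v 0 with rfl | v0
  · simp
  have n : 0 < ‖v‖ := norm_pos_iff.2 v0
  have := hc (x, ‖v‖⁻¹ • v) ⟨k, by simp [norm_smul, n.ne'], by simp [e]⟩
  simp only [map_smul, ContinuousLinearMap.smul_apply, smul_eq_mul] at this
  rwa [← mul_assoc, ← mul_inv, ← div_eq_inv_mul, le_div_iff₀ (mul_pos n n), ← sq] at this

theorem jet0 {B : ℝ} (hB : 0 < B) (hc : 0 < c) : ∃ C > 0, ∀ (g0 : R4 → R4 → ℝ) (h : B2)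
    (F : R4 →L[ℝ] R4) (Z : R4) (κ : ℝ), (∀ v w, h v w = h w v) → (∀ v, (∀ w, h v w = 0) → v = 0) →
    (∀ v w, |h (F v) (F w) - g0 v w| ≤ 2 * κ * (‖v‖ * ‖w‖)) →
    (∀ v w, |h v w - g0 v w| ≤ κ * (‖v‖ * ‖w‖)) → (∀ v w, |g0 v w| ≤ B * (‖v‖ * ‖w‖)) →
    (∀ v : R4, v.1 = 0 → c * ‖v‖ ^ 2 ≤ g0 v v) → 0 < ‖Z‖ → g0 Z Z ≤ -c * ‖Z‖ ^ 2 →
    (∀ v : R4, v.1 = 0 → F v = v) → 0 < Z.1 → (h (F Z) (F Z) < 0 → 0 < (F Z).1) → 0 ≤ κ →
    κ ≤ c / 4 → κ ≤ 1 / 3 → ‖F - 1‖ ≤ 3 * C * κ := by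
  obtain ⟨C, c0, hJ⟩ := jet1 (B := B + 1) (c := c / 2) (by positivity) (by positivity)
  refine ⟨C, c0, fun g0 h F Z κ sy nd q1 q2 q3 hS x0 x1 fA t1 t2 k0 k1 k2 => ?_⟩
  have x2 := mul_pos x0 x0
  have t3 := t2 (by nlinarith [(abs_le.1 (q1 Z Z)).2])
  refine (hJ h F (‖Z‖⁻¹ • Z) (3 * κ) sy nd (fun v w => ?_) (fun v e => ?_)
    (by simp [norm_smul, x0.ne', hB.le]) ?_ fA ?_ (by positivity) (by linarith)
    fun v w => ?_).trans_eq (by ring)
  · rw [abs_le]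
    constructor <;> nlinarith [abs_le.1 (q2 v w), abs_le.1 (q3 v w),
      mul_nonneg (norm_nonneg v) (norm_nonneg w)]
  · nlinarith [(abs_le.1 (q2 v v)).1, hS v e, sq_nonneg ‖v‖]
  · simp only [map_smul, ContinuousLinearMap.smul_apply, smul_eq_mul]
    rw [← mul_assoc, ← mul_inv, ← div_eq_inv_mul, div_le_iff₀ x2]
    nlinarith [(abs_le.1 (q2 Z Z)).2]
  · have := congrArg Prod.fst (fA (Z - Z.1 • eT) (by simp [eT]))
    rw [map_sub, map_smul] at this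
    simp only [Prod.fst_sub, Prod.smul_fst, smul_eq_mul, show eT.1 = 1 from rfl] at this
    exact pos_of_mul_pos_right (a := Z.1) (by linarith) t1.le
  · rw [abs_le]
    constructor <;> linarith [abs_le.1 (q2 v w), abs_le.1 (q1 v w)]

/-- The situation of LOCA. -/
structure Hs (P : Pm) (W : Set R4) (g : Tw) (Xf : R4 → R4) (τ : R4 → ℝ) (V V' : ℝ) (d : Dat)
    (q : Bool → Par) (T : Tg) (η : ℝ) (b : R4 → R4) : Prop where
  lens : Lens W g Xf τ V d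
  cls : Cls P (KV W τ V) g Xf q
  sub : KV W τ V ⊆ D0 P.M P.a P.r1
  le : V' ≤ V
  lor : Lor T.g T.D T.Xf
  sub' : D0 P.M P.a P.r1 ⊆ T.D
  tm : ∀ p ∈ D0 P.M P.a P.r1, p.1 = 0 → Tm T.g T.Xf (fun x => x.1) p
  cls' : Cls P univ T.g T.Xf T.q
  emb : Emb (KV W τ V') g Xf T.g T.Xf P.N η b
  maps : MapsTo b (KV W τ V') (D0 P.M P.a P.r1)

section
variable {P : Pm} {W : Set R4} {g : Tw} {Xf b : R4 → R4} {τ : R4 → ℝ} {V V' η : ℝ} {d : Dat}
  {q : Bool → Par} {T : Tg} (H : Hs P W g Xf τ V V' d q T η b) (hx : x ∈ KV W τ V')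
include H hx

theorem Hs.sa : ContDiffAt ℝ ∞ b x :=
  let ⟨_, o, s, c⟩ := H.emb.sm
  c.contDiffAt (o.mem_nhds (s hx))

theorem Hs.bl : Bl (pb b T.g - g) x :=
  (Bl.pb (H.sa hx) (.of H.lor.isOpen H.lor.met (H.sub' (H.maps hx)))).sub
    (.of H.lens.lor.isOpen H.lens.lor.met hx.1)

end

/-- The location on compact sets. -/
theorem lc (hA : ARG) (hP : PATH0) (B : Bs M a r1 r0 r2 s δ) (cA : IsCompact A)
    (sA : ∀ p ∈ A, p ∈ D0 M a r1 ∧ r2 ≤ kr M a p ∧ kr M a p ≤ 4 * M) {m : ℕ} (hm : 1 ≤ m)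
    (he : 0 < e) (hθ : 0 < θ) : ∃ ε0 > 0, ∀ R, ∀ ε ≤ ε0, ∀ η ≤ ε0, ∀ W g Xf τ V V' d q T b,
      Hs ⟨M, a, r1, θ, R, s, δ, ε, m⟩ W g Xf τ V V' d q T η b →
        LocC (m + 1) e A (KV W τ V') b := by
  have h := B.lt
  obtain ⟨h1, h2, h3, h4⟩ := B.r1
  have M0 := P354YR.M_pos h
  obtain ⟨c, c0, L, k, A', cA', sA', hp⟩ := hP M a r1 r0 r2 s δ (4 * M) B (by linarith) A cA sA
  have s1 : ∀ x ∈ A' ∪ A, x ∈ D0 M a r1 ∧ kr M a x < 5 * M := fun x k => k.elim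
    (fun k => ⟨(sA' x k).1, by linarith [(sA' x k).2.2]⟩)
    fun k => ⟨(sA x k).1, by linarith [(sA x k).2.2]⟩
  obtain ⟨ρ, ρ0, sρ⟩ := (cA'.union cA).exists_cthickening_subset_open
    (t := {x | x ∈ DK M a ∧ kr M a x < 5 * M}) (isOpen_iff_mem_nhds.2 fun x k =>
      inter_mem (open_DK.mem_nhds k.1) ((kr_ct k.1.1).eventually_lt_const k.2))
    fun x k => ⟨D0_sub h1.le (s1 x k).1, (s1 x k).2⟩
  have cA2 := (cA'.union cA).cthickening (r := ρ)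
  have s2 : _ ⊆ DK M a := fun x k => (sρ k).1
  have s3 := Metric.self_subset_cthickening (δ := ρ) (A' ∪ A)
  have s4 : ∀ y ∈ A' ∪ A, ∀ x, ‖x - y‖ ≤ ρ → x ∈ Metric.cthickening ρ (A' ∪ A) := fun y k x e =>
    Metric.mem_cthickening_of_dist_le x y ρ _ k (by rwa [dist_eq_norm])
  generalize Metric.cthickening ρ (A' ∪ A) = A2 at *
  obtain ⟨B0, b0, c1, c10, hB⟩ := met_bd open_DK (gK_met h) cA2 s2 (m + 1)
  obtain ⟨C, δA, δ0, hA⟩ := hA m |L| B0 c1 ρ hm c10 ρ0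
  obtain ⟨c2, c20, hX⟩ := tl_mar (gK_lor h) cA2 s2
    (fun x k => (s_XK (s2 k)).continuousAt.continuousWithinAt) fun x k => (gK_lor h).tl x (s2 k)
  obtain ⟨c3, c30, hS⟩ := pos_cpt open_DK (gK_met h)
    (cA2.inter_right (isClosed_eq continuous_fst (continuous_const (y := (0 : ℝ)))))
    (fun x k => s2 k.1) fun x k v v0 e => (P354YR.tm_T h (s2 k.1) (by
      rw [show x.1 = 0 from k.2, abs_zero, zero_mul]
      exact mul_pos (mul_pos (ka_pos h) M0) ((rm_nonneg h).trans_lt (s2 k.1).2))).2.2 v v0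
        (by rwa [fderiv_fst])
  have m0 := lt_min c20 c30
  have m1 := min_le_left c2 c3
  have m2 := min_le_right c2 c3
  generalize min c2 c3 = c4 at m0 m1 m2
  obtain ⟨C1, C10, hJ⟩ := jet0 b0 m0
  obtain ⟨D, hD⟩ : ∃ D, D = 2 * (|C| + 1) := ⟨_, rfl⟩
  have D1 : 1 ≤ D := by linarith [abs_nonneg C]
  obtain ⟨κ, κ0, k1, k2, k3⟩ : ∃ κ > 0, κ ≤ c4 / 4 ∧ κ ≤ 1 / 3 ∧
      (3 * C1 + 2) * D ^ (k + 1) * κ ≤ min δA e :=
    ⟨min (min (c4 / 4) (1 / 3)) (min δA e / ((3 * C1 + 2) * D ^ (k + 1))), by positivity,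
      (min_le_left _ _).trans (min_le_left _ _), (min_le_left _ _).trans (min_le_right _ _),
      (le_div_iff₀' (by positivity)).1 (min_le_right _ _)⟩
  have k4 : ∀ i ≤ k + 1, 2 * κ ≤ (3 * C1 + 2) * D ^ i * κ ∧
      (3 * C1 + 2) * D ^ i * κ ≤ min δA e := fun i hi =>
    ⟨mul_le_mul_of_nonneg_right (by nlinarith [one_le_pow₀ (n := i) D1]) κ0.le,
      le_trans (by gcongr) k3⟩
  obtain ⟨ε0, e0, hK⟩ := kc (s := s) (δ := δ) h h1 hθ cA2 s2 m (lt_min c0 c20) κ0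
  refine ⟨min ε0 κ, lt_min e0 κ0, fun R ε hε η hη W g Xf τ V V' d q T b H p pA pK => ?_⟩
  have l1 := hε.trans (min_le_left _ _)
  have l2 := hη.trans (min_le_right _ _)
  have K1 := fun x hx (k : x ∈ KV W τ V) =>
    hK R ε l1 _ W g Xf q H.lens.lor H.cls x hx k k.1 (H.sub k) (sρ hx).2.le
  have K2 := fun x hx k => hK R ε l1 _ T.D T.g T.Xf T.q H.lor H.cls' x hx trivial (H.sub' k) k
    (sρ hx).2.le
  have cl : ∀ x ∈ A2, x ∈ KV W τ V' → Bd m (pb b T.g - gK M a) x (2 * κ) := fun x hx k =>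
    bd_mono (bd_tri (H.bl k) ((Bl.of H.lens.lor.isOpen H.lens.lor.met k.1).sub
      (.of open_DK (gK_met h) (s2 hx))) (H.emb.cl x k) (K1 x hx (kv_mono H.le k)).1) le_rfl
      (by linarith)
  obtain ⟨O, oO, sO, cO⟩ := H.emb.sm
  have step : ∀ γ : ℝ → R4, (∀ u ∈ Icc (0 : ℝ) 1, γ u ∈ A' ∪ A ∧ γ u ∈ KV W τ V' ∧
      DifferentiableAt ℝ γ u ∧ ‖deriv γ u‖ ≤ |L|) → ∀ i ≤ k,
      Jt 1 (b - id) (γ 0) ((3 * C1 + 2) * D ^ i * κ) →
      Jt (m + 1) (b - id) (γ 1) ((3 * C1 + 2) * D ^ (i + 1) * κ) := fun γ hγ i hi j => by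
    obtain ⟨k5, k6⟩ := k4 i (hi.trans (Nat.le_succ k))
    have k7 := k6.trans (min_le_left _ _)
    refine jt_mono (hA (gK M a) T.g _ T.D O b γ (2 * κ) _ open_DK (gK_met h) H.lor.isOpen H.lor.met
      oO cO (k5.trans k7) k7 (fun u hu => ?_) j 1 (right_mem_Icc.2 zero_le_one)) ?_
    · obtain ⟨a1, a2, a3, a4⟩ := hγ u hu
      exact ⟨a3, a4, sO a2, H.sub' (H.maps a2), fun x e => ⟨s2 (s4 _ a1 x e), hB x (s4 _ a1 x e)⟩,
        cl _ (s3 a1) a2, fun e => bd_mono (K2 _ (s4 _ a1 _ e) (H.maps a2)).1 le_rfl (by linarith)⟩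
    · rw [pow_succ, ← mul_assoc, mul_right_comm _ D]
      generalize (3 * C1 + 2) * D ^ i * κ = ν at *
      nlinarith [le_abs_self C, abs_nonneg C]
  obtain ⟨y, -, k', hk, z, z0, z1, hz⟩ := hp p pA
  have cu : ∀ i < k', z (i + 1) ∈ KV W τ V' → ∃ γ : ℝ → R4, γ 0 = z i ∧ γ 1 = z (i + 1) ∧
      ∀ u ∈ Icc (0 : ℝ) 1, γ u ∈ A' ∪ A ∧ γ u ∈ KV W τ V' ∧ DifferentiableAt ℝ γ u ∧
        ‖deriv γ u‖ ≤ |L| := fun i hi k => by
    obtain ⟨γ, ⟨g0, g1, g2⟩, g3⟩ := hz i hi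
    exact ⟨γ, g0, g1, fun u hu => ⟨.inl (g2 u hu).1, pc W g Xf τ V d H.lens V' H.le γ (g1 ▸ k)
      (fun u hu => ⟨(g2 u hu).2.1, (sA' _ (g2 u hu).1).1.2.1, fun j =>
        (K1 _ (s3 (.inl (g2 u hu).1)) j).2 _ (g2 u hu).2.2 ((g3 u hu).2.trans
          (mul_le_mul_of_nonneg_right (neg_le_neg (min_le_left _ _)) (sq_nonneg _)))⟩) u hu,
      (g2 u hu).2.1, (g3 u hu).1.trans (le_abs_self L)⟩⟩
  have zK : ∀ i ≤ k', z i ∈ (A' ∪ A) ∩ KV W τ V' := fun i hi => by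
    induction hi using Nat.decreasingInduction with
    | self => exact z1 ▸ ⟨.inr pA, pK⟩
    | of_succ i hi ih =>
      obtain ⟨γ, g0, -, g2⟩ := cu i hi ih.2
      have := g2 0 (left_mem_Icc.2 zero_le_one)
      exact g0 ▸ ⟨this.1, this.2.1⟩
  have zJ : ∀ i ≤ k', Jt 1 (b - id) (z i) ((3 * C1 + 2) * D ^ i * κ) := fun i hi => by
    induction i with
    | succ i ih =>
      obtain ⟨γ, g0, g1, g2⟩ := cu i hi (zK _ hi).2
      exact fun j hj => (g1 ▸ step γ g2 i (by omega) (g0 ▸ ih (by omega))) j (by omega)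
    | zero =>
      obtain ⟨a1, a2⟩ := zK 0 hi
      rw [z0] at a1 a2 ⊢
      have ev := H.emb.id y a2
      have fx := ev.self_of_nhds
      have sb := H.sa a2
      have db := sb.differentiableAt (by simp)
      have xD := (s1 _ a1).1
      have xT := H.sub' xD
      have r := rp_tb H.lor.isOpen H.lor.met
      have q1 := bd_zero (cl _ (s3 a1) a2)
      have q2 := bd_zero (K2 _ (s3 a1) xD).1
      have q3 := bd_zero (hB _ (s3 a1)).1
      obtain ⟨x0, x1⟩ := hX _ (s3 a1)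
      have fA : ∀ v : R4, v.1 = 0 → fderiv ℝ b (pt 0 y) v = v := fun v e => by
        have := DFunLike.congr_fun ((db.hasFDerivAt.comp y P354YR.p0.hasFDerivAt).unique
          (P354YR.p0.hasFDerivAt.congr_of_eventuallyEq ev)) (xs v)
        rwa [ContinuousLinearMap.comp_apply, show P354YR.p0 (xs v) = v from Prod.ext e.symm rfl] at this
      have tm := fun w => (H.tm _ xD rfl).pos (w := w) H.lor.met xT (H.lor.tl _ xT)
      have fK : Ft (gK M a) (XK M a) (pt 0 y) (XK M a (pt 0 y)) :=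
        ⟨(gK_lor h).tl _ (s2 (s3 a1)), (gK_lor h).tl _ (s2 (s3 a1))⟩
      have mK := x1.trans (mul_le_mul_of_nonneg_right (neg_le_neg (min_le_right c c2)) (sq_nonneg _))
      have t1 := tm _ ((K2 _ (s3 a1) xD).2 _ fK mK)
      have t2 := H.emb.fut _ a2 _ ((K1 _ (s3 a1) (kv_mono H.le a2)).2 _ fK mK)
      simp only [Pi.sub_apply, pb, fx, fderiv_fst, r.eq _ xT] at q1 q2 t1 t2 tm
      refine Jb.succ (by simp [fx]; positivity) (Jb.of_zero ?_)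
      rw [fderiv_sub db differentiableAt_id, fderiv_id]
      exact (hJ _ _ _ _ κ (r.symm _ xT) (r.nd _ xT) q1 q2 q3 (fun v e => le_trans (by gcongr)
        (hS _ ⟨s3 a1, rfl⟩ v e)) x0 (x1.trans (by gcongr)) fA t1 (fun k => tm _ (t2 k)) κ0.le k1
        k2).trans (by nlinarith)
  exact jt_mono (step (fun _ => p) (fun u _ => ⟨.inr pA, pK, differentiableAt_const _, by simp⟩)
    k' hk (z1 ▸ zJ k' le_rfl)) ((k4 _ (by omega)).2.trans (min_le_right _ _))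

end Vale.Agent.P354LF
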