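import Vale.Agent.P354LF.Lift
import Vale.Agent.P354YI.Met
import Vale.Agent.P354YR.Cau

/-!
LOCA: margins of timelike vectors, almost isometries which fix the slice, and a calculus for Bd.
-/

set_option linter.all false
set_option maxSynthPendingDepth 3

open scoped ContDiff
open Set Filter Topology

noncomputable section

namespace Vale.Agent.P354LF

open Vale.Agent.P354n (R4)
open Vale.Agent.P354R (Met)
open Vale.Agent.P354RC (B2 inv_of_inj pb_ap pb_cd bs)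
open Vale.Agent.P354XD (tb rp_tb)
open Vale.Agent.P354XE
open Vale.Agent.P354XJ (one_sp one_tgt)
open Vale.Agent.P354YI (Oj Jb tb_eq tb_sub le_inf ev_dif at_fd)

variable {W D K : Set R4} {g g0 h h' : Tw} {Xf X0 Z f : R4 → R4} {p x : R4} {m : ℕ} {c c' : ℝ}

theorem cone3 (l : Lor g W Xf) (hp : p ∈ W) {w z : R4} (a : g p w w < 0) (b : g p z z < 0)
    (c : g p w z < 0) (d : g p z (Xf p) < 0) : Ft g Xf p w :=
  ⟨a, (one_sp l).up.same_cone (⟨p, hp⟩ : W)
    ((one_tgt (hD := l.isOpen) (g := g) (T := Xf) (c := ⟨p, hp⟩)).symm.subset hp) b a c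
    (l.tl p hp).le ((l.met.symm p hp _ _).trans_lt d)⟩

theorem rcs (l : Lor g W Xf) (hp : p ∈ W) {z : R4} (b : g p z z < 0) (w : R4) :
    g p w w * g p z z ≤ g p w z ^ 2 := by
  have r := rp_tb l.isOpen l.met
  have e : ∀ u, g p (g p z z • w - g p w z • z) u = g p z z * g p w u - g p w z * g p z u :=
    fun u => by simp [r.eq p hp]
  have e2 := e (g p z z • w - g p w z • z)
  rw [l.met.symm p hp w (_ - _), l.met.symm p hp z (_ - _), e w, e z, l.met.symm p hp z w] at e2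
  by_contra! k
  have n : g p (g p z z • w - g p w z • z) (g p z z • w - g p w z • z) < 0 := by
    rw [e2]
    nlinarith [mul_pos (neg_pos.2 b) (sub_pos.2 k)]
  rw [P354YR.zero_of (l.sig p hp) b n.le (by rw [e]; ring), r.eq p hp] at n
  simp at n

theorem tl_mar (l : Lor g0 D X0) (hK : IsCompact K) (s : K ⊆ D) (hZ : ContinuousOn Z K)
    (f : ∀ x ∈ K, g0 x (Z x) (Z x) < 0) :
    ∃ c > 0, ∀ x ∈ K, 0 < ‖Z x‖ ∧ g0 x (Z x) (Z x) ≤ -c * ‖Z x‖ ^ 2 := by
  have r := rp_tb l.isOpen l.met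
  have x0 : ∀ x ∈ K, 0 < ‖Z x‖ := fun x k => norm_pos_iff.2 fun e => by
    have := f x k
    rw [r.eq x (s k), e, map_zero] at this
    exact this.false
  obtain ⟨a, a0, ha⟩ := hK.exists_forall_le' (a := 0)
    (f := fun x => -tb g0 x (Z x) (Z x) / ‖Z x‖ ^ 2)
    ((((r.sm.continuousOn.mono s).clm_apply hZ).clm_apply hZ).neg.div (hZ.norm.pow 2)
      fun x k => (pow_pos (x0 x k) 2).ne')
    fun x k => div_pos (neg_pos.2 ((r.eq x (s k) ..).symm.trans_lt (f x k))) (pow_pos (x0 x k) 2)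
  refine ⟨a, a0, fun x k => ⟨x0 x k, ?_⟩⟩
  have := (le_div_iff₀ (pow_pos (x0 x k) 2)).1 (ha x k)
  rw [r.eq x (s k)]
  linarith

/-- Timelike vectors with a margin stay timelike, in the cone of Z, for nearby forms. -/
theorem mar (l : Lor g0 D X0) (hK : IsCompact K) (s : K ⊆ D) (hZ : ContinuousOn Z K)
    (f : ∀ x ∈ K, Ft g0 X0 x (Z x)) (hc : 0 < c) : ∃ κ > 0, ∀ x ∈ K, ∀ h : R4 → R4 → ℝ,
      (∀ v w, |h v w - g0 x v w| ≤ κ * (‖v‖ * ‖w‖)) → ∀ w, Ft g0 X0 x w →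
        g0 x w w ≤ -c * ‖w‖ ^ 2 → h w w < 0 ∧ h (Z x) (Z x) < 0 ∧ h w (Z x) < 0 := by
  obtain ⟨a, a0, ha⟩ := tl_mar l hK s hZ fun x k => (f x k).1
  refine ⟨min a c / 2, by positivity, fun x k h cl w fw mw => ?_⟩
  have w0 : 0 < ‖w‖ := norm_pos_iff.2 fun e => by
    have := fw.1
    rw [(rp_tb l.isOpen l.met).eq x (s k), e, map_zero] at this
    exact this.false
  obtain ⟨z0, mz⟩ := ha x k
  have m0 := lt_min a0 hc
  have m1 := min_le_left a c
  have m2 := min_le_right a c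
  generalize min a c = μ at *
  have c1 := cone l (s k) fw (f x k)
  have c2 := rcs l (s k) (f x k).1 w
  have p1 := mul_pos w0 w0
  have p2 := mul_pos z0 z0
  have p3 := mul_pos w0 z0
  refine ⟨by nlinarith [(abs_le.1 (cl w w)).2], by nlinarith [(abs_le.1 (cl (Z x) (Z x))).2], ?_⟩
  have c3 : μ * (‖w‖ * ‖Z x‖) ≤ -g0 x w (Z x) := by
    refine le_of_sq_le_sq ?_ (neg_pos.2 c1).le
    have := mul_le_mul (show μ * ‖w‖ ^ 2 ≤ -g0 x w w by nlinarith)
      (show μ * ‖Z x‖ ^ 2 ≤ -g0 x (Z x) (Z x) by nlinarith) (by positivity) (neg_pos.2 fw.1).le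
    nlinarith
  nlinarith [(abs_le.1 (cl w (Z x))).2]

/-- An almost isometry which fixes the slice and respects the time orientation. -/
theorem jet1 {B c : ℝ} (hB : 0 < B) (hc : 0 < c) : ∃ C > 0, ∀ (h : B2) (A : R4 →L[ℝ] R4) (X : R4)
    (κ : ℝ), (∀ v w, h v w = h w v) → (∀ v, (∀ w, h v w = 0) → v = 0) →
    (∀ v w, |h v w| ≤ B * (‖v‖ * ‖w‖)) → (∀ v : R4, v.1 = 0 → c * ‖v‖ ^ 2 ≤ h v v) → ‖X‖ ≤ B →
    h X X ≤ -c → (∀ v : R4, v.1 = 0 → A v = v) → 0 < (A eT).1 → 0 ≤ κ → κ ≤ 1 →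
    (∀ v w, |h (A v) (A w) - h v w| ≤ κ * (‖v‖ * ‖w‖)) → ‖A - 1‖ ≤ C * κ := by
  refine ⟨(1 + B / c) ^ 3 * (1 + 1 / c) * B ^ 2 / c + (1 + B / c) / c, by positivity,
    fun h A X κ sy nd hb pos hX tl fx fu k0 k1 cl => ?_⟩
  have eT1 : eT.1 = 1 := rfl
  have neT : ‖eT‖ = 1 := by simp [eT, Prod.norm_def]
  obtain ⟨n, hn⟩ : ∃ n, ∀ v, h n v = v.1 := ⟨h.inverse (.fst ℝ ℝ _), fun v => by
    rw [(inv_of_inj nd).self_apply_inverse]; rfl⟩
  have n0 : n.1 ≠ 0 := fun e => by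
    have := pos n e
    rw [hn, e] at this
    have : n = 0 := norm_eq_zero.1 (pow_eq_zero_iff two_ne_zero |>.1 (by nlinarith [sq_nonneg ‖n‖]))
    simpa [this, eT] using hn eT
  obtain ⟨N, N1, hN⟩ : ∃ N : R4, N.1 = 1 ∧ ∀ v : R4, v.1 = 0 → h N v = 0 :=
    ⟨n.1⁻¹ • n, by simp [n0], fun v e => by simp [hn, e]⟩
  have sm : ∀ (u : R4) (t : ℝ), u.1 = 0 → 0 ≤ t → h u u ≤ t * ‖u‖ → ‖u‖ ≤ t / c := fun u t e t0 k => by
    rw [le_div_iff₀ hc]
    rcases (norm_nonneg u).eq_or_lt with z | z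
    · rw [← z, zero_mul]; exact t0
    · exact le_of_mul_le_mul_right (by nlinarith [pos u e]) z
  have nN : ‖N‖ ≤ 1 + B / c := by
    have e : (N - eT).1 = 0 := by simp [N1, eT1]
    have := sm _ B e hB.le (by
      have := (abs_le.1 (hb eT (N - eT))).1
      rw [neT] at this
      rw [map_sub (h (N - eT)), sy _ N, hN _ e, sy _ eT]
      linarith)
    linarith [norm_le_norm_add_norm_sub' N eT]
  have dec : ∀ (t : ℝ) (u : R4), u.1 = 0 → h (t • N + u) (t • N + u) = t ^ 2 * h N N + h u u :=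
    fun t u e => by
      simp only [map_add, map_smul, ContinuousLinearMap.add_apply, ContinuousLinearMap.smul_apply,
        smul_eq_mul, sy u N, hN u e]
      ring
  have mN : c ≤ B ^ 2 * -h N N := by
    have e : (X - X.1 • N).1 = 0 := by simp [N1]
    have d := dec X.1 _ e
    rw [add_sub_cancel] at d
    have x1 : X.1 ^ 2 ≤ B ^ 2 := sq_le_sq' (by linarith [neg_abs_le X.1, norm_fst_le X, Real.norm_eq_abs X.1])
      (by linarith [le_abs_self X.1, norm_fst_le X, Real.norm_eq_abs X.1])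
    have u0 := le_trans (by positivity) (pos _ e)
    have : 0 < -h N N := by
      by_contra! k
      nlinarith [sq_nonneg X.1]
    nlinarith
  have AN : A N - N = A eT - eT := by
    have := fx (N - eT) (by simp [N1, eT1])
    rw [map_sub] at this
    linear_combination (exp := 1) this
  have y1 : (A N).1 = (A eT).1 := by simpa [N1, eT1] using congrArg Prod.fst AN
  set y := (A eT).1
  have e : (A N - y • N).1 = 0 := by simp [N1, y1]
  set u := A N - y • N with hu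
  have eu : A N = y • N + u := by rw [hu, add_sub_cancel]
  have n1 := norm_nonneg N
  have huu : h u u ≤ κ * ‖N‖ * ‖u‖ := by
    have := (abs_le.1 (cl u N)).2
    rw [fx u e, eu, map_add, map_smul, sy u N, hN u e] at this
    simp only [smul_eq_mul] at this
    linarith
  have nu := sm u _ e (by positivity) huu
  have u0 := le_trans (by positivity) (pos u e)
  have nu2 : ‖u‖ ≤ κ * ((1 + B / c) / c) := nu.trans (by rw [mul_div_assoc]; gcongr)
  have hy : |y - 1| * c ≤ κ * ((1 + B / c) ^ 2 * (1 + 1 / c) * B ^ 2) := by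
    have a := cl N N
    rw [eu, dec y u e] at a
    have a1 : h u u ≤ κ * ((1 + B / c) ^ 2 * (1 / c)) := huu.trans (by
      calc κ * ‖N‖ * ‖u‖ ≤ κ * (1 + B / c) * (1 * ((1 + B / c) / c)) := by
            gcongr
            exact nu2.trans (by gcongr)
        _ = _ := by ring)
    have a2 : κ * (‖N‖ * ‖N‖) ≤ κ * (1 + B / c) ^ 2 := by rw [sq]; gcongr
    have m0 : 0 < -h N N := pos_of_mul_pos_right (hc.trans_le mN) (sq_nonneg B)
    have a3 : |y ^ 2 - 1| * -h N N ≤ κ * ((1 + B / c) ^ 2 * (1 + 1 / c)) := by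
      rw [← abs_of_pos m0, ← abs_mul, abs_le]
      constructor <;> nlinarith [(abs_le.1 a).1, (abs_le.1 a).2]
    have a4 : |y - 1| ≤ |y ^ 2 - 1| := by
      rw [show y ^ 2 - 1 = (y - 1) * (y + 1) by ring, abs_mul, abs_of_pos (by linarith : 0 < y + 1)]
      nlinarith [abs_nonneg (y - 1)]
    calc |y - 1| * c ≤ |y ^ 2 - 1| * (B ^ 2 * -h N N) := by gcongr
      _ = |y ^ 2 - 1| * -h N N * B ^ 2 := by ring
      _ ≤ _ := by rw [← mul_assoc]; gcongr
  have nz : ‖A eT - eT‖ ≤ |y - 1| * (1 + B / c) + ‖u‖ := by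
    rw [← AN, eu, show y • N + u - N = (y - 1) • N + u by module]
    refine norm_add_le_of_le ?_ le_rfl
    rw [norm_smul]
    exact mul_le_mul_of_nonneg_left nN (abs_nonneg _)
  refine ContinuousLinearMap.opNorm_le_bound _ (by positivity) fun v => ?_
  have ev : (A - 1) v = v.1 • (A eT - eT) := by
    have := fx (v - v.1 • eT) (by simp [eT1])
    rw [map_sub, map_smul] at this
    rw [ContinuousLinearMap.sub_apply, ContinuousLinearMap.one_apply, smul_sub]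
    linear_combination (exp := 1) this
  rw [ev, norm_smul, mul_comm]
  refine mul_le_mul (nz.trans ?_) (norm_fst_le v) (norm_nonneg _) (by positivity)
  have := mul_le_mul_of_nonneg_right ((le_div_iff₀ hc).2 hy) (show 0 ≤ 1 + B / c by positivity)
  refine (add_le_add this nu2).trans_eq ?_
  ring

/-! ### Fields which are smooth at x and bilinear near x -/

structure Bl (h : Tw) (x : R4) : Prop where
  sm : ∀ v w, ContDiffAt ℝ ∞ (fun y => h y v w) x
  ev : ∀ᶠ y in 𝓝 x, ∀ v w, h y v w = tb h y v w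

theorem Bl.of (o : IsOpen D) (m : Met g D) (hx : x ∈ D) : Bl g x :=
  ⟨fun v w => (m.smooth v w).contDiffAt (o.mem_nhds hx),
    (o.eventually_mem hx).mono fun y hy => (rp_tb o m).eq y hy⟩

theorem Bl.sub (a : Bl h x) (b : Bl h' x) : Bl (h - h') x :=
  ⟨fun v w => (a.sm v w).sub (b.sm v w), (a.ev.and b.ev).mono fun y k v w => by
    rw [tb_sub]
    simp only [Pi.sub_apply, ContinuousLinearMap.sub_apply, k.1, k.2]⟩

theorem tb_of {T : B2} (e : ∀ v w, h x v w = T v w) (v w : R4) : tb h x v w = T v w := by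
  conv_rhs => rw [← P354RC.sum_bs v, ← P354RC.sum_bs w]
  simp only [tb, e, ContinuousLinearMap.sum_apply, ContinuousLinearMap.smul_apply,
    ContinuousLinearMap.smulRight_apply, map_sum, map_smul, smul_eq_mul, Finset.mul_sum]
  rw [Finset.sum_comm]
  exact Finset.sum_congr rfl fun _ _ => Finset.sum_congr rfl fun _ _ => by ring

theorem Bl.tb (a : Bl h x) : ContDiffAt ℝ ∞ (tb h) x :=
  ContDiffAt.sum fun _ _ => ContDiffAt.sum fun _ _ => (a.sm _ _).smul contDiffAt_const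

theorem Bl.pb_ev (s : ContDiffAt ℝ ∞ f p) (a : Bl h (f p)) :
    ∀ᶠ y in 𝓝 p, ∀ v w, pb f h y v w = P354RC.pb (P354XD.tb h) f y v w :=
  (s.continuousAt.eventually a.ev).mono fun y k v w => k _ _

theorem Bl.pb (s : ContDiffAt ℝ ∞ f p) (a : Bl h (f p)) : Bl (pb f h) p :=
  ⟨fun v w => (((pb_cd a.tb s).clm_apply contDiffAt_const).clm_apply
      contDiffAt_const).congr_of_eventuallyEq ((Bl.pb_ev s a).mono fun y k => k v w),
    (Bl.pb_ev s a).mono fun y k v w => (k v w).trans (tb_of k v w).symm⟩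

theorem bd_congr (a : Bd m h x c) (e : ∀ᶠ y in 𝓝 x, ∀ v w, h' y v w = h y v w) : Bd m h' x c :=
  fun k hk v w => by
    rw [(EventuallyEq.iteratedFDeriv ℝ (e.mono fun y k => k v w) k).eq_of_nhds]
    exact a k hk v w

theorem bd_nn (a : Bd m h x c) : 0 ≤ c := by
  simpa using (norm_nonneg _).trans (a 0 (Nat.zero_le _) (1, 0) (1, 0))

theorem bd_mono {m' : ℕ} (a : Bd m h x c) (hm : m' ≤ m) (hc : c ≤ c') : Bd m' h x c' :=
  fun k hk v w => (a k (hk.trans hm) v w).trans (mul_le_mul_of_nonneg_right hc (by positivity))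

theorem bd_zero (a : Bd m h x c) (v w : R4) : |h x v w| ≤ c * (‖v‖ * ‖w‖) := by
  simpa using a 0 (Nat.zero_le _) v w

theorem bd_tri {h'' : Tw} (a : Bl (h - h') x) (b : Bl (h' - h'') x) (c1 : Bd m (h - h') x c)
    (c2 : Bd m (h' - h'') x c') : Bd m (h - h'') x (c + c') := fun k hk v w => by
  have : (fun y => (h - h'') y v w) = fun y => (h - h') y v w + (h' - h'') y v w := by
    funext y
    simp
  rw [this, fun_iteratedFDeriv_add_apply ((a.sm v w).of_le (le_inf k)) ((b.sm v w).of_le (le_inf k)),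
    add_mul]
  exact norm_add_le_of_le (c1 k hk v w) (c2 k hk v w)

/-- The pull back by a map with bounded jets. -/
theorem bd_pb (m : ℕ) (B : ℝ) : ∃ C, 0 ≤ C ∧ ∀ f p h ε, ContDiffAt ℝ ∞ f p →
    Jb m (fderiv ℝ f) p B → Bl h (f p) → Bd m h (f p) ε → Bd m (pb f h) p (C * ε) := by
  let J := {i : (R4 → R4) × R4 × Tw × ℝ // ContDiffAt ℝ ∞ i.1 i.2.1 ∧
    Jb m (fderiv ℝ i.1) i.2.1 B ∧ Bl i.2.2.1 (i.1 i.2.1) ∧ Bd m i.2.2.1 (i.1 i.2.1) i.2.2.2}
  obtain ⟨C, c0, hC⟩ := (Oj.pb (x := fun i : J => i.1.2.1) (fun i => i.2.1)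
    (.of1 (fun i => at_fd i.2.1) fun i => i.2.2.1)
    (Oj.tb (fun i => i.2.2.2.1.sm) fun i => i.2.2.2.2)).bd' fun i => Bl.pb_ev i.2.1 i.2.2.2.1
  exact ⟨C, c0, fun f p h ε a b c d => hC ⟨(f, p, h, ε), a, b, c, d⟩⟩

/-- The composition with a map with bounded jets. -/
theorem jb_comp (m : ℕ) (B : ℝ) : ∃ C, 0 ≤ C ∧ ∀ (f G : R4 → R4) p ε, ContDiffAt ℝ ∞ f p →
    Jb m (fderiv ℝ f) p B → ContDiffAt ℝ ∞ G (f p) → Jb m G (f p) ε →
    Jb m (fun y => G (f y)) p (C * ε) := by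
  let J := {i : (R4 → R4) × (R4 → R4) × R4 × ℝ // ContDiffAt ℝ ∞ i.1 i.2.2.1 ∧
    Jb m (fderiv ℝ i.1) i.2.2.1 B ∧ ContDiffAt ℝ ∞ i.2.1 (i.1 i.2.2.1) ∧
    Jb m i.2.1 (i.1 i.2.2.1) i.2.2.2}
  obtain ⟨C, c0, hC⟩ := (Oj.comp (x := fun i : J => i.1.2.2.1) (fun i => i.2.1) m
    ((Oj.of1 (fun i => at_fd i.2.1) fun i => i.2.2.1).le (Nat.sub_le m 1))
    (Oj.of (fun i => i.2.2.2.1) fun i => i.2.2.2.2)).bd
  exact ⟨C, c0, fun f G p ε a b c d => hC ⟨(f, G, p, ε), a, b, c, d⟩⟩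

theorem pb_pb {f' : R4 → R4} (s : ContDiffAt ℝ ∞ f p) (s' : ContDiffAt ℝ ∞ f' (f p)) :
    ∀ᶠ y in 𝓝 p, ∀ v w, pb (f' ∘ f) h y v w = pb f (pb f' h) y v w := by
  filter_upwards [ev_dif s, s.continuousAt.eventually (ev_dif s')] with y a b v w
  simp only [pb, fderiv_comp y b a]
  rfl

theorem pb_congr {f' : R4 → R4} (e : f =ᶠ[𝓝 p] f') :
    ∀ᶠ y in 𝓝 p, ∀ v w, pb f h y v w = pb f' h y v w := by
  filter_upwards [e, e.fderiv (𝕜 := ℝ)] with y a b v w
  simp only [pb, a, b]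

/-- Bounds for a metric on a compact set. -/
theorem met_bd (o : IsOpen D) (t : Met g D) (hK : IsCompact K) (s : K ⊆ D) (m : ℕ) :
    ∃ B > 0, ∃ c > 0, ∀ x ∈ K, Bd m g x B ∧ ∀ v, ∃ w, ‖w‖ ≤ 1 ∧ c * ‖v‖ ≤ g x v w := by
  have r := rp_tb o t
  obtain ⟨C, c0, hC⟩ := (Oj.fix (m := m) (x := fun i : K => i.1) hK (fun y k => r.at (s k))
    fun i => i.2).bd' (g := fun _ => g) fun i => (Bl.of o t (s i.2)).ev
  obtain ⟨I, hI⟩ := hK.exists_bound_of_continuousOn (f := fun x => (tb g x).inverse)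
    fun x k => (r.inv_cd (s k)).continuousAt.continuousWithinAt
  refine ⟨C + 1, by positivity, (2 * (|I| + 1))⁻¹, by positivity, fun x k =>
    ⟨bd_mono (hC ⟨x, k⟩) le_rfl (by simp), fun v => ?_⟩⟩
  rcases eq_or_ne v 0 with rfl | v0
  · exact ⟨0, by simp, by simp [r.eq x (s k)]⟩
  have n : ‖v‖ ≤ (|I| + 1) * ‖tb g x v‖ := by
    nth_rewrite 1 [← (inv_of_inj (r.nd x (s k))).inverse_apply_self v]
    exact (ContinuousLinearMap.le_opNorm _ _).trans (mul_le_mul_of_nonneg_right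
      (by linarith [hI x k, le_abs_self I]) (norm_nonneg _))
  have v1 := norm_pos_iff.2 v0
  obtain ⟨w, w1, w2⟩ := (tb g x v).exists_lt_apply_of_lt_opNorm
    (r := (2 * (|I| + 1))⁻¹ * ‖v‖) (by
      rw [inv_mul_lt_iff₀ (by positivity)]
      linarith)
  rcases le_total 0 (tb g x v w) with z | z
  · exact ⟨w, w1.le, by rw [r.eq x (s k)]; exact w2.le.trans_eq (Real.norm_of_nonneg z)⟩
  · exact ⟨-w, by simpa using w1.le, by
      rw [r.eq x (s k), map_neg]; exact w2.le.trans_eq (Real.norm_of_nonpos z)⟩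

end Vale.Agent.P354LF
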