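import Vale.Agent.P354LF.Cv

/-!
LOCA: the location of almost isometries in the near zone.
-/

set_option linter.all false
set_option maxSynthPendingDepth 3

open scoped ContDiff
open Set Filter Topology Matrix

noncomputable section

namespace Vale.Agent.P354LF

open Vale.Agent.P354n (R4)
open Vale.Agent.P354I (X Dat rm rp Sg)
open Vale.Agent.P354XE hiding ci
open Vale.Agent.P354XA (linL rd_lin)
open Vale.Agent.P354XU (Jt)
open Vale.Agent.P354XM (inv_lin lin_inv lin_DI cq_mem cq_cd iq_cd iq_cq cq_iq jt_zero)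
open Vale.Agent.P354YI (ex_jb at_fd)
open Vale.Agent.P354YR (DK DI DE ci isCh gin_lor open_DI open_DE D0_sub)
open Vale.Agent.P354YM hiding kv_mono jt_congr
open Vale.Agent.P354TS (kr_ct)

variable {M a r1 r0 r2 θ s δ c ε e : ℝ} {σ : Bool} {p x : R4} {q q' : Par}

theorem rd_iq (h : |a| < M) (hq : q.Rᵀ * q.R = 1) (hx : x ∈ DE M a σ) :
    rd (iq M a σ q x) = kr M a x := by
  have C := isCh h σ
  rw [iq, Function.comp, P354YJ.rd_inv hq, ← C.rad _ (C.back.maps hx), C.right x hx]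

theorem kr_cq (h : |a| < M) (hq : q.Rᵀ * q.R = 1) (hp : p ∈ DI M a) :
    kr M a (cq M a σ q p) = rd p := ((isCh h σ).rad _ (lin_DI hq hp)).trans (rd_lin hq p)

theorem cls_le {P : Pm} {K : Set R4} {g : Tw} {Xf : R4 → R4} {q : Bool → Par} {m : ℕ}
    (h : Cls P K g Xf q) (k : m ≤ P.N) : Cls (P.n m) K g Xf q :=
  ⟨h.par, fun σ p a b c => (h.near σ p a b c).imp_left (bd_mono · k le_rfl),
    fun p a b c => (h.mid p a b c).imp_left (bd_mono · k le_rfl),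
    fun σ p a b c => bd_mono (h.conv σ p a b c) k le_rfl⟩

theorem eta_of (h : |a| < M) (h1 : rm M a < r1) (nq : q.Near M a ε) (hε : 0 < ε) (l2 : ε ≤ 1 / 2)
    {K : Set R4} (cK : IsCompact K) (sub : K ⊆ D0 M a r1) (m : ℕ) : ∃ η0 > 0, ∀ p : R4, 0 ≤ p.1 →
      p ∈ DI M a → cq M a σ q p ∈ K → ∀ k, Bl k (cq M a σ q p) → Bd m k (cq M a σ q p) η0 →
        Bd m (pb (cq M a σ q) k) p (ε * (1 + |p.1|) ^ (-s)) := by
  have o := nq.2.2.2.1
  have n1 := (nr nq l2).1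
  have sE : ∀ x ∈ {x ∈ K | mf M a (kr M a x) ≤ nV M a σ x}, x ∈ DE M a σ := fun x k =>
    ⟨D0_sub h1.le (sub k.1), (mf_pos (h1.trans (sub k.1).2.2)).trans_le k.2⟩
  have c1 := (cpt_le (f := fun x => mf M a (kr M a x)) (g := nV M a σ) cK
    (fun x k => ((mf_cont h).continuousAt.comp (kr_ct (sub k).1)).continuousWithinAt)
    fun x k => (nv_ct (sub k).1).continuousWithinAt).image_of_continuousOn (f := iq M a σ q)
      fun x k => (iq_cd h _ (sE x k)).continuousAt.continuousWithinAt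
  obtain ⟨B1, -, hB⟩ := ex_jb m c1 (f := fderiv ℝ (cq M a σ q)) (by
    rintro _ ⟨x, k, rfl⟩
    exact at_fd (cq_cd h o (show _ < _ from (rd_iq h o (sE x k)).symm ▸ (sE x k).1.2)))
  obtain ⟨C, c0, hC⟩ := bd_pb m B1
  obtain ⟨w, w0, hw⟩ := c1.exists_forall_le' (a := 0) (f := fun p : R4 => (1 + |p.1|) ^ (-s))
    (ContinuousOn.rpow_const (by fun_prop) fun x _ => .inl (by positivity))
    fun x _ => by positivity
  refine ⟨ε * w / (C + 1), by positivity, fun p p0 pI pK k bl bd => ?_⟩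
  have mp : p ∈ iq M a σ q '' {x ∈ K | mf M a (kr M a x) ≤ nV M a σ x} :=
    ⟨_, ⟨pK, by
      rw [kr_cq h o pI, cq, Function.comp, nv_ch h (lin_DI o pI), rd_lin o]
      exact le_mul_of_one_le_right (mf_pos pI).le (Real.one_le_exp (mul_nonneg (ka_pos h).le
        (mul_nonneg (by linarith) p0)))⟩, iq_cq h o (by linarith) pI⟩
  refine bd_mono (hC _ _ _ _ (cq_cd h o pI) (hB p mp) bl bd) le_rfl
    (le_trans ?_ (mul_le_mul_of_nonneg_left (hw p mp) hε.le))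
  rw [← mul_div_assoc, div_le_iff₀ (by positivity)]
  nlinarith [mul_pos hε w0]

theorem pb_sub (f : R4 → R4) (h h' : Tw) : pb f (h - h') = pb f h - pb f h' := rfl

/-- The hypotheses of SPINE. -/
theorem sp_of (B : Bs M a r1 r0 r2 s δ) (hc : 0 < c) (m : ℕ) : ∃ t1 ≥ 0, ∃ ε0 > 0, ∀ θ ≤ 1, ∀ R,
    ∀ ε ∈ Ioc 0 ε0, ∀ W g Xf τ V d q, Lens W g Xf τ V d →
      Cls ⟨M, a, r1, θ, R, s, δ, ε, m⟩ (KV W τ V) g Xf q → KV W τ V ⊆ D0 M a r1 → ∃ η0 > 0,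
      ∀ η ≤ η0, ∀ V' T b, Hs ⟨M, a, r1, θ, R, s, δ, ε, m⟩ W g Xf τ V V' d q T η b → ∀ σ L, ∀ t ≥ t1,
        Sp M a r1 r2 s c L t (3 * ε) m ((q σ).M, (q σ).a) ((T.q σ).M, (T.q σ).a)
          {p | p ∈ DI M a ∧ cq M a σ (q σ) p ∈ KV W τ V'} (DE M a σ)
          {x | x ∈ DI M a ∧ cq M a σ (T.q σ) x ∈ T.D} (b ∘ cq M a σ (q σ)) (cq M a σ (T.q σ))
          (iq M a σ (T.q σ)) (pb (cq M a σ (T.q σ)) T.g) := by
  have h := B.lt
  obtain ⟨h1, h2, h3, h4⟩ := B.r1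
  have M0 := P354YR.M_pos h
  have hs : 0 ≤ s := by linarith [B.hs]
  obtain ⟨t1, t0, ht⟩ := late h (h1.trans (h2.trans h3))
  obtain ⟨ε0, e0, hF⟩ := fut_cq (δ := δ) h h1 (h2.trans h3) hs hc
  refine ⟨2 * t1, by positivity, min ε0 (1 / 2), by positivity,
    fun θ hθ R ε hε W g Xf τ V d q L cl sub => ?_⟩
  have l1 : ε ∈ Ioc 0 ε0 := ⟨hε.1, hε.2.trans (min_le_left _ _)⟩
  have l2 := hε.2.trans (min_le_right _ _)
  choose η0 p0 key using fun σ => eta_of (σ := σ) (s := s) h h1 (cl.par σ) hε.1 l2 L.cpt sub m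
  refine ⟨min (η0 true) (η0 false), lt_min (p0 _) (p0 _), fun η hη V' T b H σ L' t ht' => ?_⟩
  have l3 : η ≤ η0 σ := hη.trans (by cases σ <;> simp)
  have nq := cl.par σ
  have nq' := H.cls'.par σ
  have o := nq.2.2.2.1
  have o' := nq'.2.2.2.1
  have n1 := (nr nq l2).1
  have n2 : (T.q σ).l ≠ 0 := by linarith [(nr nq' l2).1] |> fun k : 0 < (T.q σ).l => k.ne'
  have nz : ∀ p ∈ Nz M r2 t, p ∈ DI M a ∧ 0 ≤ p.1 ∧ 0 ≤ (cq M a σ (q σ) p).1 ∧
      (q σ).lin p ∈ En M a r1 θ := fun p k => by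
    have z : 0 ≤ p.1 := by linarith [k.1]
    have z1 : 0 ≤ (cq M a σ (q σ) p).1 := (ch_fst σ _).symm ▸ ht _
      (by rw [P354XA.lin_fst]; linarith [k.1, mul_le_mul_of_nonneg_right n1 z]) ((rd_lin o p).symm ▸ k.2.1)
      ((rd_lin o p).symm ▸ k.2.2)
    exact ⟨(h1.trans (h2.trans h3)).trans_le k.2.1, z, z1,
      en_of h nq l2 hθ z ((h2.trans h3).trans_le k.2.1) z1⟩
  have oD : ∀ (q : Par) (O : Set R4), q.Rᵀ * q.R = 1 → IsOpen O →
      IsOpen {x | x ∈ DI M a ∧ cq M a σ q x ∈ O} := fun q O o oO => isOpen_iff_mem_nhds.2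
    fun x k => inter_mem (open_DI.mem_nhds k.1) ((cq_cd h o k.1).continuousAt (oO.mem_nhds k.2))
  have l4 : ε ≤ 3 * ε := by linarith [hε.1]
  refine ⟨⟨(par_le nq).trans l4, (par_le nq').trans l4⟩, fun x x' γ k ⟨g0, g1, g2⟩ g3 u hu => ?_,
    ?_, ⟨open_DE σ, fun x k => (iq_cd h _ k).contDiffWithinAt⟩,
    ⟨fun x k => (cq_cd h o' (h1.trans k)).continuousAt.continuousWithinAt,
      fun x k => ⟨cq_mem h o' (h1.trans k), iq_cq h o' n2 (h1.trans k)⟩, fun y k => cq_iq h o' n2 k⟩,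
    ⟨oD _ _ o' H.lor.isOpen, P354RC.k2.1 _ _ _ _ _ ⟨oD _ _ o' H.lor.isOpen, H.lor.isOpen, H.lor.met,
      fun x k => (cq_cd h o' k.1).contDiffWithinAt, fun x k => k.2, fun x k v w e => ?_,
      fun _ _ _ _ => rfl⟩⟩, fun p ⟨k, k'⟩ mE => ?_⟩
  · refine ⟨(nz _ (g2 u hu).1).1, pc W g Xf τ V d L V' H.le (cq M a σ (q σ) ∘ γ)
      (by rw [Function.comp, g1]; exact k.2) (fun u hu => ?_) u hu⟩
    obtain ⟨a1, a2, a3⟩ := g2 u hu
    obtain ⟨z1, -, z2, z3⟩ := nz _ a1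
    have D := ((cq_cd (σ := σ) h o z1).differentiableAt (by simp)).hasFDerivAt.comp_hasDerivAt u
      a2.hasDerivAt
    exact ⟨D.differentiableAt, z2, fun j => D.deriv.symm ▸
      hF θ R ε l1 m _ W g Xf q L.lor cl σ _ _ z3 a1.2.1 a1.2.2 j j.1 a3 (g3 u hu).2⟩
  · obtain ⟨O, oO, sO, cO⟩ := H.emb.sm
    exact ⟨_, oD _ O o oO, fun p k => ⟨k.1.1, sO k.1.2⟩, fun p k =>
      ((cO.contDiffAt (oO.mem_nhds k.2)).comp p (cq_cd h o k.1)).contDiffWithinAt⟩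
  · rw [cq_fd h o' k.1, cq_fd h o' k.1] at e
    rw [← inv_lin o' n2 v, (isCh h σ).pull.inj _ (lin_DI o' k.1) e, inv_lin o' n2]
  obtain ⟨z1, z0, z2, z3⟩ := nz _ k'
  have mD := H.maps k.2
  have e1 := cq_iq h o' n2 mE
  have e2 := rd_iq h o' mE
  have mI : iq M a σ (T.q σ) ((b ∘ cq M a σ (q σ)) p) ∈ DI M a := show _ < _ from e2 ▸ mE.1.2
  have s1 := cq_cd (σ := σ) h o z1
  have s2 := H.sa k.2
  have s3 := s2.comp p s1
  have j1 := Bl.pb s1 (H.bl k.2)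
  have j2 := key σ p z0 z1 (kv_mono H.le k.2) _ (H.bl k.2) (bd_mono (H.emb.cl _ k.2) le_rfl l3)
  rw [pb_sub] at j1 j2
  have j3 := bd_tri j1 ((Bl.pb s1 (.of L.lor.isOpen L.lor.met k.2.1)).sub
    (.of (D := {x | xs x ≠ 0}) P354YR.open_ne (P354YR.gin_met fun _ k => k) (P354YR.DI_ne h z1)))
    j2 (cl.conv σ p z3 (k'.2.2.trans (by linarith)) (kv_mono H.le k.2))
  refine ⟨⟨mI, e1.symm ▸ H.sub' mD⟩, bd_congr (bd_mono j3 le_rfl (le_of_eq (by ring))) ?_,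
    fun a1 a2 => bd_mono (H.cls'.conv σ _ (en_of (σ := σ) h nq' l2 hθ a1 (mD.2.2.trans_eq e2.symm)
      (mD.2.1.trans_eq (congrArg Prod.fst e1).symm)) a2 trivial) le_rfl
      (mul_le_mul_of_nonneg_right (by linarith [hε.1]) (by positivity))⟩
  have ev : cq M a σ (T.q σ) ∘ iq M a σ (T.q σ) ∘ b ∘ cq M a σ (q σ) =ᶠ[𝓝 p] b ∘ cq M a σ (q σ) :=
    (s3.continuousAt.eventually ((open_DE σ).mem_nhds mE)).mono fun y k => cq_iq h o' n2 k
  filter_upwards [pb_pb (h := T.g) ((iq_cd h (T.q σ) mE).comp p s3) (cq_cd (σ := σ) h o' mI),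
    pb_congr (h := T.g) ev, pb_pb (h := T.g) s1 s2] with y k1 k2 k3 v w
  exact congrArg (· - _) ((k1 v w).symm.trans ((k2 v w).trans (k3 v w)))

theorem loca (hC : CLS) (hA : ARG) (hP : PATH0) (hS : SPINE) : LOCA := by
  intro M a r1 r0 r2 s δ B n
  refine ⟨0, fun L A cA sA e he => ?_⟩
  have h := B.lt
  obtain ⟨h1, h2, h3, h4⟩ := B.r1
  have h5 := h1.trans (h2.trans h3)
  have M0 := P354YR.M_pos h
  have hs : 0 ≤ s := by linarith [B.hs]
  obtain ⟨c, c0, Ls, t1, hS⟩ := hS M a r1 r2 s |L| n B.ne h h1 (h2.trans h3)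
    (h4.le.trans (P354XA.hor h).2.2.2.1) hs
  obtain ⟨t3, t30, ε1, e1, hsp⟩ := sp_of B c0 (n + 3)
  obtain ⟨t2, C, δ', δ0, hS⟩ := hS (max t1 t3) (le_max_left _ _)
  have t5 := le_max_right t1 t3
  generalize max t1 t3 = t at hS t5
  obtain ⟨t4, a1, a2, a3⟩ : ∃ t4, t ≤ t4 ∧ |t2| + |L| ≤ t4 ∧ 0 ≤ t4 :=
    ⟨max t (|t2| + |L|), le_max_left _ _, le_max_right _ _, le_max_of_le_left (t30.trans t5)⟩
  have cQ := shell_cpt (2 * t4) r2 (4 * M)
  have sQ : _ ⊆ DI M a := fun x (k : x ∈ {x : R4 | |x.1| ≤ 2 * t4 ∧ r2 ≤ rd x ∧ rd x ≤ 4 * M}) =>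
    h5.trans_le k.2.1
  obtain ⟨w, hw⟩ : ∃ w, w = (1 + |t2|) ^ (-s) := ⟨_, rfl⟩
  have w0 : 0 < w := by rw [hw]; positivity
  obtain ⟨e2, e20, hcv⟩ := cnv h cQ sQ (n + 1) (lt_min δ0 (mul_pos he w0))
  obtain ⟨V1, hV⟩ : ∃ V1, V1 = mf M a (4 * M) * Real.exp (ka M a * (2 * t4)) := ⟨_, rfl⟩
  have c1 := cpt_le (f := kr M a) (g := fun _ => 4 * M) (cpt_le (f := fun _ => r2) (g := kr M a)
    (cpt_le (f := fun _ => 0) (P354YR.box_cpt h V1) continuousOn_const continuousOn_fst)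
    continuousOn_const fun x k => (kr_ct k.1.1).continuousWithinAt)
    (fun x k => (kr_ct k.1.1.1).continuousWithinAt) continuousOn_const
  have c2 := (cA.union c1).union (isCompact_iUnion fun σ => cpt_le (f := fun _ => 0)
    (cQ.image_of_continuousOn (f := ch M a σ)
      fun x k => (ch_cd h (sQ k)).continuousAt.continuousWithinAt)
    continuousOn_const continuousOn_fst)
  set A1 := _ ∪ ⋃ σ, _ with hA1
  have s1 : ∀ p ∈ A1, p ∈ D0 M a r1 ∧ r2 ≤ kr M a p ∧ kr M a p ≤ 4 * M := by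
    rintro p ((k | k) | k)
    · exact sA p k
    · exact ⟨⟨k.1.1.1.1, k.1.1.2, (h2.trans h3).trans_le k.1.2⟩, k.1.2, k.2⟩
    · obtain ⟨σ, ⟨x, j, rfl⟩, k'⟩ := mem_iUnion.1 k
      have := (isCh h σ).rad x (sQ j)
      exact ⟨⟨((isCh h σ).maps (sQ j)).1.1, k', this ▸ (h2.trans h3).trans_le j.2.1⟩,
        this ▸ j.2.1, this ▸ j.2.2⟩
  obtain ⟨e3, e30, hU⟩ := Metric.mem_uniformity_dist.1 (c2.uniformContinuousAt_of_continuousAt
    (kr M a) (fun x k => kr_ct (s1 x k).1.1) (Metric.dist_mem_uniformity he))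
  obtain ⟨θ0, p0, hC⟩ := hC M a r1 r0 r2 s δ B
  refine ⟨min θ0 1, lt_min p0 one_pos, fun θ hθ => ?_⟩
  obtain ⟨R0, hC⟩ := hC θ ⟨hθ.1, hθ.2.trans_le (min_le_left _ _)⟩
  refine ⟨R0, fun R hR => ?_⟩
  obtain ⟨N0, hC⟩ := hC R hR
  refine ⟨max N0 (n + 3), fun N hN => ?_⟩
  obtain ⟨ε0, e0, hC⟩ := hC N ((le_max_left _ _).trans hN)
  obtain ⟨ε2, e4, hL⟩ := lc hA hP B c2 s1 (m := n + 3) (by omega)
    (lt_min he (lt_min e20 (half_pos e30))) hθ.1
  obtain ⟨ε3, e5, b0, b1, b2, b3, b4, b5, b6, b7⟩ : ∃ ε > 0, ε ≤ ε0 ∧ ε ≤ ε1 ∧ ε ≤ ε2 ∧ ε ≤ δ' / 3 ∧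
      ε ≤ e / (6 * (|C| + 1)) ∧ ε ≤ e2 ∧ ε ≤ e * w / 2 ∧ ε ≤ 1 / 2 :=
    ⟨min ε0 (min ε1 (min ε2 (min (δ' / 3) (min (e / (6 * (|C| + 1))) (min e2 (min (e * w / 2)
      (1 / 2))))))), by positivity, by simp only [← le_min_iff, le_rfl]⟩
  refine ⟨ε3, e5, fun ε hε W g Xf τ V d q hR => ?_⟩
  have cl := cls_le (m := n + 3) hR.cls (show n + 3 ≤ n + 5 by omega)
  obtain ⟨η0, η1, hsp⟩ := hsp θ (hθ.2.le.trans (min_le_right _ _)) R ε ⟨hε.1, hε.2.trans b1⟩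
    W g Xf τ V d q hR.lens cl fun p k => (hR.sub p k).1
  refine ⟨min η0 ε2, lt_min η1 e4, fun V' hV' d' T b hT eb mb => ?_⟩
  have H : Hs ⟨M, a, r1, θ, R, s, δ, ε, n + 3⟩ W g Xf τ V V' d q T _ b :=
    ⟨hR.lens, cl, fun p k => (hR.sub p k).1, hV', hT.lor, hT.sub,
      fun p k => (P354TS.sig_tm hT k :),
      cls_le (hC ε ⟨hε.1, hε.2.trans b0⟩ d' T hT) ((le_max_right _ _).trans hN), eb, mb⟩
  have lc := hL R ε (hε.2.trans b2) _ (min_le_right _ _) W g Xf τ V V' d q T b H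
  have l2 := hε.2.trans b7
  have nq := H.cls.par
  have nq' := H.cls'.par
  have bx : ∀ σ (p : R4), |p.1| ≤ t4 → r2 ≤ rd p → rd p ≤ 4 * M → cq M a σ (q σ) p ∈ KV W τ V' →
      b (cq M a σ (q σ) p) ∈ DE M a σ ∧
        Jt (n + 1) (iq M a σ (T.q σ) ∘ b ∘ cq M a σ (q σ) - id) p (min δ' (e * w)) :=
    fun σ p k1 k2 k3 k => by
      obtain ⟨n1, n2, -⟩ := nr (nq σ) l2
      have m : (q σ).lin p ∈ {x : R4 | |x.1| ≤ 2 * t4 ∧ r2 ≤ rd x ∧ rd x ≤ 4 * M} :=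
        ⟨by rw [P354XA.lin_fst, abs_mul, abs_of_pos (by linarith)]; gcongr,
          by rwa [rd_lin (nq σ).2.2.2.1], by rwa [rd_lin (nq σ).2.2.2.1]⟩
      exact hcv σ _ _ b p (Par.near_mono (nq σ) (hε.2.trans b5))
        (Par.near_mono (nq' σ) (hε.2.trans b5)) m (H.sa k) (P354XM.jt_mono
          (lc _ (.inr (mem_iUnion.2 ⟨σ, ⟨_, m, rfl⟩, k.2.1⟩)) k) (by omega)
          ((min_le_right _ _).trans (min_le_left _ _)))
  have y3 : ∀ t, rd (t, y0 M) = 3 * M := fun t => by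
    rw [← Real.sqrt_sq (P354XA.rd_nonneg _), P354XA.rd_sq, Real.sqrt_eq_iff_mul_self_eq_of_pos
      (by positivity)]
    simp only [P354XA.ip, y0]
    ring
  have sp := fun σ => hS (3 * ε) ⟨by linarith [hε.1], by linarith [hε.2]⟩ _ _ _ _ _ _ _ _ _
    (hsp _ (min_le_left _ _) V' T b H σ Ls t t5) fun k => (bx σ _
      (by rwa [abs_of_nonneg (t30.trans t5)]) (by rw [y3]; linarith [(P354XA.hor h).2.2.2.1])
      (by rw [y3]; linarith) k.2).imp_right (P354XM.jt_mono · (by omega) (min_le_left _ _))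
  have b8 : C * (3 * ε) ≤ e / 2 := by
    have := (le_div_iff₀ (by positivity)).1 (hε.2.trans b4)
    linarith [mul_le_mul_of_nonneg_right (le_abs_self C) hε.1.le, hε.1]
  refine ⟨fun x xK xr => ?_, fun p pA pK => P354XM.jt_mono (lc p (.inl (.inl pA)) pK) (by omega)
    (min_le_left _ _), fun σ t0 t00 => ?_⟩
  · obtain ⟨xD, x2⟩ := hR.sub x (kv_mono hV' xK)
    by_cases k : x ∈ A1
    · have := hU (a := x) (b := b x) (by
        rw [dist_comm, dist_eq_norm]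
        exact ((jt_zero (lc x k xK)).trans ((min_le_right _ _).trans (min_le_right _ _))).trans_lt
          (half_lt_self e30)) k
      rw [abs_sub_comm]
      exact le_of_lt this
    obtain ⟨σ, hσ⟩ := nv_max M a x
    have x1 : V1 < nV M a σ x := by
      by_contra! j
      rw [hσ] at j
      exact k (.inl (.inr ⟨⟨⟨⟨xD.1, by rw [abs_of_nonneg xD.2.1]; linarith [abs_nonneg (kx M a x)],
        by linarith [xD.2.1]⟩, xD.2.1⟩, x2⟩, xr⟩))
    have m4 := mf_pos (show rm M a < 4 * M from h5.trans_le (x2.trans xr))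
    have mE : x ∈ DE M a σ := ⟨D0_sub h1.le xD, lt_trans (by rw [hV]; positivity) x1⟩
    have o := (nq σ).2.2.2.1
    obtain ⟨n1, n2, -⟩ := nr (nq σ) l2
    have q1 := cq_iq h o (by linarith) mE
    have q2 := rd_iq h o mE
    have mI : iq M a σ (q σ) x ∈ DI M a := show _ < _ from q2 ▸ mE.1.2
    generalize iq M a σ (q σ) x = p at *
    have q3 := nv_ch (σ := σ) h (lin_DI o mI)
    rw [show ch M a σ ((q σ).lin p) = x from q1, rd_lin o] at q3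
    have q4 : t4 ≤ p.1 := by
      have := lt_of_mul_lt_mul_left (Real.exp_lt_exp.1 (lt_of_mul_lt_mul_left ((hV ▸ x1).trans_le
        (q3.trans_le (mul_le_mul_of_nonneg_right (mf_le h mI (q2.trans_le xr))
          (Real.exp_pos _).le))) m4.le)) (ka_pos h).le
      rw [P354XA.lin_fst] at this
      have z := pos_of_mul_pos_right (a := (q σ).l) (b := p.1) (by linarith) (by linarith)
      linarith [mul_le_mul_of_nonneg_right n2 z.le]
    obtain ⟨c', φ, j⟩ := sp σ p.1 (by linarith [le_abs_self t2, abs_nonneg L])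
    obtain ⟨-, j1, j2⟩ := j p ⟨mI, q1.symm ▸ xK⟩ (by simp) (q2.symm ▸ x2) (q2.symm ▸ xr)
    have j3 := P354YO.rd_lip ((iq M a σ (T.q σ) ∘ b ∘ cq M a σ (q σ)) p) (P354XM.sh c' φ p)
    have j4 := (jt_zero j2).trans (mul_le_mul_of_nonneg_right b8 (by positivity [a3.trans q4]))
    simp only [Function.comp, Pi.sub_apply, q1] at j1 j3 j4
    rw [rd_iq h (nq' σ).2.2.2.1 j1, P354XM.rd_sh, q2] at j3
    linarith [mul_le_of_le_one_right (half_pos he).le (wt_le hs (a3.trans q4))]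
  have w1 : 0 ≤ (1 + t0) ^ (-s) := by positivity
  rcases le_total t2 t0 with k | k
  · obtain ⟨c', φ, j⟩ := sp σ t0 k
    refine ⟨c', φ, fun p k1 k2 k3 k4 => ?_⟩
    obtain ⟨j0, j1, j2⟩ := j p ⟨h5.trans_le k2, k4⟩ (k1.trans (le_abs_self L)) k2 k3
    have j3 := mul_le_mul_of_nonneg_right (b8.trans (half_le_self he.le)) w1
    exact ⟨(norm_fst_le _).trans (j0.trans j3), (norm_snd_le _).trans (j0.trans j3), j1,
      jt_mono j2 j3⟩
  · refine ⟨0, 0, fun p k1 k2 k3 k4 => ?_⟩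
    have j0 : e * w ≤ e * (1 + t0) ^ (-s) := mul_le_mul_of_nonneg_left (hw ▸
      Real.rpow_le_rpow_of_nonpos (by linarith) (by linarith [le_abs_self t2]) (by linarith)) he.le
    obtain ⟨j1, j2⟩ := bx σ p (by
      rw [abs_le] at k1 ⊢
      constructor <;> linarith [le_abs_self L, le_abs_self t2, abs_nonneg t2]) k2 k3 k4
    have j3 : ∀ {x y z : ℝ}, |x - z| < ε → |y - z| < ε → |x - y| ≤ e * (1 + t0) ^ (-s) :=
      fun a b => by
        rw [abs_lt] at a b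
        rw [abs_le]
        constructor <;> linarith [hε.2]
    exact ⟨j3 (nq' σ).1 (nq σ).1, j3 (nq' σ).2.1 (nq σ).2.1, j1, P354XM.sh_zero ▸
      P354XM.jt_mono j2 (Nat.le_succ n) ((min_le_right _ _).trans j0)⟩

end Vale.Agent.P354LF
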